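import Vale.Agent.P329.H672.Q2b
import Vale.Agent.P329.H131.Q1

/-! Pair counts with the distance modulo a prime. -/

set_option linter.all false

namespace Vale.Agent.P329.H672.Q2

open Vale.Agent.P329 Vale.Agent.P329.H559 Vale.Agent.P329.H559.C2

variable {α : Type} {q : ℕ}

/-- **pair counts with the distance modulo a prime are known** -/
theorem pg_all [Finite α] (hq : q.Prime) (a b : α) (g : ZMod q) :
    KnZ fun w : List α => pg q g a b w.reverse := by
  haveI : NeZero q := ⟨hq.ne_zero⟩
  exact pg_knownN (fun K γ β hne h1 h2 h3 => H131.pcq' hq K γ β hne h1 h2 h3) a b g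

open Classical in
/-- number of letters `a` at the clock `r` -/
noncomputable def nc (n : ℕ) (a : α) (r : ZMod n) : List α → ℤ
  | [] => 0
  | x :: X => nc n a r X + if x = a ∧ ((X.length : ℕ) : ZMod n) = r then 1 else 0

open Classical in
/-- number of pairs of a letter `a` and a later letter `b` at distance `g` -/
noncomputable def PG (n : ℕ) (g : ZMod n) (a b : α) : List α → ℤ
  | [] => 0
  | x :: X => PG n g a b X + if x = b then nc n a (((X.length : ℕ) : ZMod n) - g) X else 0

theorem nc_eq (n : ℕ) (a : α) (r : ZMod n) (X : List α) : nc n a r X = uc n a r X := by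
  classical
  induction X with
  | nil => rfl
  | cons x X ih =>
    rw [nc, ih, uc_cons, tc]
    congr 1
    exact if_congr and_comm rfl rfl

theorem PG_eq (n : ℕ) (g : ZMod n) (a b : α) (X : List α) : PG n g a b X = pg n g a b X := by
  classical
  induction X with
  | nil => rfl
  | cons x X ih => rw [PG, ih, pg, cg_eq, nc_eq]

theorem PG_known [Finite α] (hq : q.Prime) (g : ZMod q) (a b : α) :
    KnZ fun w : List α => PG q g a b w.reverse :=
  (pg_all hq a b g).congr fun w => PG_eq q g a b w.reverse

theorem nc_known [Finite α] (hq : 0 < q) (a : α) (r : ZMod q) :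
    KnZ fun w : List α => nc q a r w.reverse := by
  haveI : NeZero q := ⟨hq.ne'⟩
  exact (uc_known a r).congr fun w => nc_eq q a r w.reverse

end Vale.Agent.P329.H672.Q2
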