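import Vale.Agent.P329.H67.Defs
import Mathlib.Data.Nat.Prime.Basic
import Mathlib.Algebra.Order.Ring.Nat

/-! Occurrences of windows in classes modulo powers of a prime, from the aperiodic windows. -/

set_option linter.all false

namespace Vale.Agent.P329.H672.StB

open Vale.Agent.P329 Vale.Agent.P329.H67

variable {α : Type}

theorem oc_congr {N M : ℕ} {F : ℕ → (Fin N → Option α) → ℤ} {G : ℕ → (Fin M → Option α) → ℤ}
    (h : ∀ (b : α) (Y : List α), F (Y.length + 1) (win N (b :: Y)) =
      G (Y.length + 1) (win M (b :: Y))) (X : List α) : oc N F X = oc M G X := by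
  induction X with
  | nil => rfl
  | cons b X ih => rw [oc, oc, ih, h]

theorem oc_zero {N : ℕ} {F : ℕ → (Fin N → Option α) → ℤ}
    (h : ∀ (b : α) (Y : List α), F (Y.length + 1) (win N (b :: Y)) = 0) (X : List α) :
    oc N F X = 0 := by
  induction X with
  | nil => rfl
  | cons b X ih => rw [oc, ih, h, add_zero]

theorem oc_sum {N : ℕ} {ι : Type} (s : Finset ι) (F : ι → ℕ → (Fin N → Option α) → ℤ)
    (X : List α) : oc N (fun e W => ∑ i ∈ s, F i e W) X = ∑ i ∈ s, oc N (F i) X := by
  induction X with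
  | nil => exact (Finset.sum_eq_zero fun _ _ => rfl).symm
  | cons b X ih =>
    rw [oc, ih, ← Finset.sum_add_distrib]
    rfl

theorem oc_sub {N : ℕ} (F G : ℕ → (Fin N → Option α) → ℤ) (X : List α) :
    oc N (fun e W => F e W - G e W) X = oc N F X - oc N G X := by
  induction X with
  | nil => rfl
  | cons b X ih => rw [oc, ih, oc, oc]; ring

theorem knZ_sum {ι : Type} [Fintype ι] {F : ι → List α → ℤ} (h : ∀ i, KnZ (F i)) :
    KnZ fun w => ∑ i, F i w := KnZ.sum Finset.univ fun i _ => h i

/-- a weight depending on the window is a sum of weights at single windows -/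
theorem split [Finite α] {N : ℕ} (F : ℕ → (Fin N → Option α) → ℤ)
    (h : ∀ R : Fin N → Option α, KnZ fun w : List α => oc N (at1 (fun e => F e R) R) w.reverse) :
    KnZ fun w : List α => oc N F w.reverse := by
  classical
  have := Fintype.ofFinite (Fin N → Option α)
  refine (knZ_sum h).congr fun w => ?_
  rw [← oc_sum]
  apply oc_congr
  intro b Y
  symm
  rw [Finset.sum_eq_single (win N (b :: Y))]
  · exact if_pos rfl
  · intro R _ hR
    exact if_neg (Ne.symm hR)
  · intro h; exact absurd (Finset.mem_univ _) h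

theorem per_mono {N s t : ℕ} (hst : s ∣ t) {R : Fin N → Option α} (h : Per s R) : Per t R := by
  intro i j hij
  exact h i j (Nat.ModEq.of_dvd hst hij)

section step

variable {N t : ℕ} {R : Fin N → Option α}

/-- the empty word has no window `R` -/
theorem win_nil_ne (hN : 0 < N) (hR : R ⟨0, hN⟩ ≠ none) : win N ([] : List α) ≠ R := by
  intro h
  apply hR
  rw [← h]
  rfl

open Classical in
/-- shifted occurrences -/
theorem shift_eq (hN : 0 < N) (hR : R ⟨0, hN⟩ ≠ none) {M : ℕ} (hM : N + t ≤ M) (ht : 0 < t)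
    (ψ : ℕ → ℤ) (X : List α) :
    oc M (fun e W => if (fun i : Fin N => W ⟨t + i.1, by omega⟩) = R then ψ e else 0) X =
      oc N (at1 (fun e => ψ (e + t)) R) (X.drop t) := by
  have hw : ∀ Y : List α, (fun i : Fin N => win M Y ⟨t + i.1, by omega⟩) =
      win N (Y.drop t) := by
    intro Y
    funext i
    show Y[t + i.1]? = (Y.drop t)[i.1]?
    rw [List.getElem?_drop]
  induction X with
  | nil => rw [List.drop_nil]; rfl
  | cons b X ih =>
    rw [oc, ih, hw]
    by_cases h : X.length + 1 ≤ t
    · have h1 : (b :: X).drop t = [] := List.drop_eq_nil_of_le (by rw [List.length_cons]; exact h)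
      have h2 : X.drop t = [] := List.drop_eq_nil_of_le (by omega)
      rw [h1, h2, if_neg (win_nil_ne hN hR), add_zero]
    · have h1 : (b :: X).drop t = X[t - 1]'(by omega) :: X.drop t := by
        obtain ⟨t', rfl⟩ : ∃ t', t = t' + 1 := ⟨t - 1, by omega⟩
        rw [List.drop_succ_cons]
        exact List.drop_eq_getElem_cons (by omega)
      rw [h1, oc, at1]
      have h2 : (X.drop t).length + 1 + t = X.length + 1 := by
        rw [List.length_drop]; omega
      rw [h2]

open Classical in
/-- the tail -/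
noncomputable def tl (R : Fin N → Option α) (ψ : ℕ → ℤ) (t : ℕ) (X : List α) : ℤ :=
  ∑ j ∈ Finset.range t, if win N (X.drop j) = R then ψ (X.drop j).length else 0

theorem tail_eq (hN : 0 < N) (hR : R ⟨0, hN⟩ ≠ none) (ψ : ℕ → ℤ) (t : ℕ) (X : List α) :
    oc N (at1 ψ R) X = oc N (at1 ψ R) (X.drop t) + tl R ψ t X := by
  classical
  induction t with
  | zero => rw [List.drop_zero, tl, Finset.sum_range_zero, add_zero]
  | succ t ih =>
    rw [ih, tl, tl, Finset.sum_range_succ]
    have h1 : oc N (at1 ψ R) (X.drop t) = oc N (at1 ψ R) (X.drop (t + 1)) +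
        if win N (X.drop t) = R then ψ (X.drop t).length else 0 := by
      by_cases h : t < X.length
      · have h2 : X.drop t = X[t] :: X.drop (t + 1) := List.drop_eq_getElem_cons h
        rw [h2, oc, at1, List.length_cons]
      · have h2 : X.drop t = [] := List.drop_eq_nil_of_le (by omega)
        have h3 : X.drop (t + 1) = [] := List.drop_eq_nil_of_le (by omega)
        rw [h2, h3, if_neg (win_nil_ne hN hR), add_zero]
    rw [h1]
    ring

theorem tail_known [Finite α] {p l : ℕ} (hL : ∀ l, H434.LocK (p ^ l)) (ψ : ℕ → ℤ)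
    (hψ : ∀ e, ψ (e + p ^ l) = ψ e) (R : Fin N → Option α) (t : ℕ) :
    KnZ fun w : List α => tl R ψ t w.reverse := by
  classical
  have hψ' : ∀ x y, x % p ^ l = y % p ^ l → ψ x = ψ y := by
    have h1 : ∀ k x, ψ (x + p ^ l * k) = ψ x := by
      intro k
      induction k with
      | zero => intro x; rw [Nat.mul_zero, Nat.add_zero]
      | succ k ih => intro x; rw [Nat.mul_succ, ← Nat.add_assoc, hψ, ih]
    intro x y h
    rw [← Nat.mod_add_div x (p ^ l), ← Nat.mod_add_div y (p ^ l), h1, h1, h]
  intro n hn v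
  have h1 := hL l α (N + t) (fun X => ((tl R ψ t X : ℤ) : ZMod n) = v) (by
    intro X Y h1 h2
    have h3 : tl R ψ t X = tl R ψ t Y := by
      by_cases h4 : X.length < N + t
      · have h5 : X.take (N + t) = X := List.take_of_length_le h4.le
        have h6 : Y.length < N + t := by
          have h7 := congrArg List.length h2
          rw [List.length_take, List.length_take] at h7
          omega
        rw [h5, List.take_of_length_le h6.le] at h2
        rw [h2]
      · have h6 : N + t ≤ Y.length := by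
          have h7 := congrArg List.length h2
          rw [List.length_take, List.length_take] at h7
          omega
        refine Finset.sum_congr rfl fun j hj => ?_
        have hj' := Finset.mem_range.1 hj
        have h7 : win N (X.drop j) = win N (Y.drop j) := by
          funext i
          show (X.drop j)[i.1]? = (Y.drop j)[i.1]?
          rw [List.getElem?_drop, List.getElem?_drop]
          have h8 : ∀ Z : List α, (Z.take (N + t))[j + i.1]? = Z[j + i.1]? := fun Z =>
            List.getElem?_take_of_lt (by omega)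
          rw [← h8 X, ← h8 Y, h2]
        have h9 : ψ (X.drop j).length = ψ (Y.drop j).length := by
          apply hψ'
          rw [List.length_drop, List.length_drop]
          have h10 : (X.length - j) + j ≡ (Y.length - j) + j [MOD p ^ l] := by
            rw [Nat.sub_add_cancel (by omega), Nat.sub_add_cancel (by omega)]
            exact h1
          exact Nat.ModEq.add_right_cancel' j h10
        rw [h7, h9]
    rw [h3])
  refine Eq.mp (congrArg (SH 1) ?_) h1
  rfl

end step

section main

variable {p : ℕ} [hp : Fact p.Prime]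

theorem not_per_of {r : ℕ} {N : ℕ} (hN : N = p ^ r) {R : Fin N → Option α}
    (h : ∀ q < r, ¬ Per (p ^ q) R) : ∀ t, t ∣ N → t < N → ¬ Per t R := by
  intro t ht htN
  subst hN
  obtain ⟨q, hq, rfl⟩ := (Nat.dvd_prime_pow hp.out).1 ht
  apply h
  by_contra hcon
  have : p ^ r ≤ p ^ q := Nat.pow_le_pow_right hp.out.pos (by omega)
  omega

theorem periodic_mul {ψ : ℕ → ℤ} {n : ℕ} (h : ∀ e, ψ (e + n) = ψ e) (k : ℕ) :
    ∀ e, ψ (e + n * k) = ψ e := by
  induction k with
  | zero => intro e; rw [Nat.mul_zero, Nat.add_zero]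
  | succ k ih => intro e; rw [Nat.mul_succ, ← Nat.add_assoc, h, ih]

theorem diff_known [Finite α] (hA : StA) (hL : ∀ l, H434.LocK (p ^ l)) {l r s : ℕ} (hlr : l ≤ r)
    (hsr : s < r) {R : Fin (p ^ r) → Option α} (hN : 0 < p ^ r) (hR : R ⟨0, hN⟩ ≠ none)
    (hper : Per (p ^ s) R) {ψ : ℕ → ℤ} (hψ : ∀ e, ψ (e + p ^ l) = ψ e) :
    KnZ fun w : List α => oc (p ^ r) (at1 ψ R) w.reverse -
      oc (p ^ r) (at1 (fun e => ψ (e + p ^ s)) R) w.reverse := by
  classical
  have hp2 : 2 ≤ p := hp.out.two_le
  have hs0 : 0 < p ^ s := pow_pos hp.out.pos _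
  have hst : p ^ s ≤ p ^ r := Nat.pow_le_pow_right hp.out.pos hsr.le
  have hdvd : p ^ s ∣ p ^ r := pow_dvd_pow p hsr.le
  have hM : p ^ r + p ^ s ≤ p ^ (r + 1) := by
    rw [pow_succ]
    nlinarith
  let D : (Fin (p ^ (r + 1)) → Option α) → ℤ := fun W =>
    (if (fun i : Fin (p ^ r) => W ⟨i.1, by omega⟩) = R then 1 else 0) -
    (if (fun i : Fin (p ^ r) => W ⟨p ^ s + i.1, by omega⟩) = R then 1 else 0)
  have hD : ∀ W, Per (p ^ r) W → D W = 0 := by
    intro W hW
    have h1 : (fun i : Fin (p ^ r) => W ⟨i.1, by omega⟩) = R ↔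
        (fun i : Fin (p ^ r) => W ⟨p ^ s + i.1, by omega⟩) = R := by
      constructor
      · intro h
        funext i
        have h2 : W ⟨p ^ s + i.1, by omega⟩ =
            W ⟨(p ^ s + i.1) % p ^ r, by have := Nat.mod_lt (p ^ s + i.1) hN; omega⟩ := by
          apply hW
          exact (Nat.mod_mod _ _).symm
        have h3 := congrFun h ⟨(p ^ s + i.1) % p ^ r, Nat.mod_lt _ hN⟩
        rw [h2]
        refine h3.trans (hper _ _ ?_)
        show (p ^ s + i.1) % p ^ r % p ^ s = i.1 % p ^ s
        rw [Nat.mod_mod_of_dvd _ hdvd, Nat.add_mod_left]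
      · intro h
        funext i
        -- the index `j` with `p ^ s + j = i` modulo `p ^ r`
        have h4 : (p ^ s + (i.1 + (p ^ r - p ^ s)) % p ^ r) % p ^ r = i.1 := by
          rw [Nat.add_mod_mod, show p ^ s + (i.1 + (p ^ r - p ^ s)) = i.1 + p ^ r by omega,
            Nat.add_mod_right, Nat.mod_eq_of_lt i.2]
        have h2 : W ⟨i.1, by omega⟩ = W ⟨p ^ s + (i.1 + (p ^ r - p ^ s)) % p ^ r, by
            have := Nat.mod_lt (i.1 + (p ^ r - p ^ s)) hN; omega⟩ := by
          apply hW
          show i.1 % p ^ r = (p ^ s + (i.1 + (p ^ r - p ^ s)) % p ^ r) % p ^ r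
          rw [h4, Nat.mod_eq_of_lt i.2]
        have h3 := congrFun h ⟨(i.1 + (p ^ r - p ^ s)) % p ^ r, Nat.mod_lt _ hN⟩
        rw [h2]
        refine h3.trans (hper _ _ ?_)
        show (i.1 + (p ^ r - p ^ s)) % p ^ r % p ^ s = i.1 % p ^ s
        rw [Nat.mod_mod_of_dvd _ hdvd]
        obtain ⟨k, hk⟩ : p ^ s ∣ p ^ r - p ^ s := Nat.dvd_sub hdvd (dvd_refl _)
        rw [hk, Nat.add_mul_mod_self_left]
    show (if _ then (1 : ℤ) else 0) - (if _ then (1 : ℤ) else 0) = 0
    rw [if_congr h1 rfl rfl, sub_self]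
  have hA1 : KnZ fun w : List α => oc (p ^ (r + 1)) (fun e W => ψ e * D W) w.reverse := by
    apply split
    intro W
    by_cases hW : Per (p ^ r) W
    · refine (KnZ.const 0).congr fun w => ?_
      apply oc_zero
      intro b Y
      show (if _ then ψ _ * D W else 0) = 0
      rw [hD W hW, mul_zero, ite_self]
    · refine hA α (p ^ (r + 1)) (pow_pos hp.out.pos _) W
        (not_per_of rfl fun q hq hPer => hW (per_mono (pow_dvd_pow p (by omega)) hPer))
        (fun e => ψ e * D W) fun e => ?_
      show ψ (e + p ^ (r + 1)) * D W = ψ e * D W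
      obtain ⟨k, hk⟩ : p ^ l ∣ p ^ (r + 1) := pow_dvd_pow p (by omega)
      rw [hk, periodic_mul hψ]
  have hA2 : ∀ X : List α, oc (p ^ (r + 1)) (fun e W => ψ e * D W) X =
      oc (p ^ r) (at1 ψ R) X - oc (p ^ r) (at1 (fun e => ψ (e + p ^ s)) R) (X.drop (p ^ s)) := by
    intro X
    rw [← shift_eq hN hR hM hs0 ψ X]
    have h1 : oc (p ^ r) (at1 ψ R) X = oc (p ^ (r + 1)) (fun e W =>
        if (fun i : Fin (p ^ r) => W ⟨i.1, by omega⟩) = R then ψ e else 0) X := by
      apply oc_congr
      intro b Y
      rfl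
    rw [h1, ← oc_sub]
    apply oc_congr
    intro b Y
    show ψ _ * ((if _ then (1 : ℤ) else 0) - (if _ then (1 : ℤ) else 0)) =
      (if _ then ψ _ else 0) - (if _ then ψ _ else 0)
    split_ifs <;> ring
  have hT := tail_known (α := α) (N := p ^ r) (p := p) (l := l) hL (fun e => ψ (e + p ^ s))
    (fun e => by
      show ψ (e + p ^ l + p ^ s) = ψ (e + p ^ s)
      rw [Nat.add_right_comm, hψ]) R (p ^ s)
  refine (hA1.sub hT).congr fun w => ?_
  rw [hA2, tail_eq hN hR (fun e => ψ (e + p ^ s)) (p ^ s) w.reverse]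
  ring

theorem main [Finite α] (hA : StA) (hL : ∀ l, H434.LocK (p ^ l)) {l r : ℕ} (hlr : l ≤ r)
    (d : ℕ) : ∀ s, s + d = r → ∀ (R : Fin (p ^ r) → Option α), (∀ q < s, ¬ Per (p ^ q) R) →
      ∀ ψ : ℕ → ℤ, (∀ e, ψ (e + p ^ l) = ψ e) →
        KnZ fun w : List α => oc (p ^ r) (at1 ψ R) w.reverse := by
  classical
  have hN : 0 < p ^ r := pow_pos hp.out.pos _
  induction d with
  | zero =>
    intro s hs R hR ψ hψ
    have hs' : s = r := by omega
    subst hs'
    refine hA α (p ^ s) hN R (not_per_of rfl hR) ψ fun e => ?_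
    obtain ⟨k, hk⟩ : p ^ l ∣ p ^ s := pow_dvd_pow p hlr
    rw [hk, periodic_mul hψ]
  | succ d ih =>
    intro s hs R hR ψ hψ
    by_cases h0 : R ⟨0, hN⟩ = none
    · refine (KnZ.const 0).congr fun w => ?_
      apply oc_zero
      intro b Y
      refine if_neg fun h => ?_
      have h1 := congrFun h ⟨0, hN⟩
      rw [h0] at h1
      exact absurd h1 (by show ¬ (some b = none); exact Option.some_ne_none b)
    by_cases hper : Per (p ^ s) R
    swap
    · refine ih (s + 1) (by omega) R (fun q hq => ?_) ψ hψ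
      rcases Nat.lt_succ_iff_lt_or_eq.1 hq with h | h
      · exact hR q h
      · rw [h]; exact hper
    have hs0 : 0 < p ^ s := pow_pos hp.out.pos _
    have hst : p ^ s ≤ p ^ r := Nat.pow_le_pow_right hp.out.pos (by omega)
    -- known differences
    have hd : ∀ j : ℕ, KnZ fun w : List α => oc (p ^ r) (at1 ψ R) w.reverse -
        oc (p ^ r) (at1 (fun e => ψ (e + p ^ s * j)) R) w.reverse := by
      intro j
      induction j with
      | zero =>
        refine (KnZ.const 0).congr fun w => ?_
        have h1 : (fun e => ψ (e + p ^ s * 0)) = ψ := by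
          funext e; rw [Nat.mul_zero, Nat.add_zero]
        rw [h1, sub_self]
      | succ j ihj =>
        have h1 := diff_known (α := α) (r := r) (s := s) hA hL hlr (by omega) hN h0 hper
          (ψ := fun e => ψ (e + p ^ s * j)) (fun e => by
            show ψ (e + p ^ l + p ^ s * j) = ψ (e + p ^ s * j)
            rw [Nat.add_right_comm, hψ])
        refine (ihj.add h1).congr fun w => ?_
        have h2 : (fun e => ψ (e + p ^ s * (j + 1))) =
            fun e => (fun e => ψ (e + p ^ s * j)) (e + p ^ s) := by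
          funext e
          show ψ (e + p ^ s * (j + 1)) = ψ (e + p ^ s + p ^ s * j)
          congr 1; ring
        rw [h2]
        ring
    -- the averaged weight
    let Ψ : ℕ → ℤ := fun e => ∑ j ∈ Finset.range (p ^ l), ψ (e + p ^ s * j)
    have hΨl : ∀ e, Ψ (e + p ^ l) = Ψ e := by
      intro e
      refine Finset.sum_congr rfl fun j _ => ?_
      rw [Nat.add_right_comm, hψ]
    have hΨs : ∀ e, Ψ (e + p ^ s) = Ψ e := by
      intro e
      have h1 : Ψ (e + p ^ s) = ∑ j ∈ Finset.range (p ^ l), ψ (e + p ^ s * (j + 1)) := by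
        refine Finset.sum_congr rfl fun j _ => ?_
        congr 1; ring
      have h2 := Finset.sum_range_succ (fun j => ψ (e + p ^ s * j)) (p ^ l)
      have h3 := Finset.sum_range_succ' (fun j => ψ (e + p ^ s * j)) (p ^ l)
      have h4 : ψ (e + p ^ s * p ^ l) = ψ (e + p ^ s * 0) := by
        rw [Nat.mul_comm (p ^ s), periodic_mul hψ, Nat.mul_zero, Nat.add_zero]
      rw [h1]
      show _ = ∑ j ∈ Finset.range (p ^ l), ψ (e + p ^ s * j)
      rw [h2] at h3
      rw [h4] at h3
      linarith
    -- the short window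
    let ρ : Fin (p ^ s) → Option α := fun i => R ⟨i.1, by omega⟩
    have hRρ : ∀ W : Fin (p ^ r) → Option α, Per (p ^ s) W →
        (fun i : Fin (p ^ s) => W ⟨i.1, by omega⟩) = ρ → W = R := by
      intro W hW h
      funext i
      have hi : i.1 % p ^ s < p ^ s := Nat.mod_lt _ hs0
      have h1 : W i = W ⟨i.1 % p ^ s, by omega⟩ := hW _ _ (Nat.mod_mod _ _).symm
      have h2 : R i = R ⟨i.1 % p ^ s, by omega⟩ := hper _ _ (Nat.mod_mod _ _).symm
      rw [h1, h2]
      exact congrFun h ⟨i.1 % p ^ s, hi⟩
    have hρ : KnZ fun w : List α => oc (p ^ s) (at1 Ψ ρ) w.reverse := by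
      refine hA α (p ^ s) hs0 ρ (not_per_of rfl fun q hq hPer => ?_) Ψ hΨs
      apply hR q hq
      intro i j hij
      have hi : i.1 % p ^ s < p ^ s := Nat.mod_lt _ hs0
      have hj : j.1 % p ^ s < p ^ s := Nat.mod_lt _ hs0
      have h1 : R i = R ⟨i.1 % p ^ s, by omega⟩ := hper _ _ (Nat.mod_mod _ _).symm
      have h2 : R j = R ⟨j.1 % p ^ s, by omega⟩ := hper _ _ (Nat.mod_mod _ _).symm
      rw [h1, h2]
      refine hPer ⟨i.1 % p ^ s, hi⟩ ⟨j.1 % p ^ s, hj⟩ ?_
      show i.1 % p ^ s % p ^ q = j.1 % p ^ s % p ^ q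
      rw [Nat.mod_mod_of_dvd _ (pow_dvd_pow p hq.le), Nat.mod_mod_of_dvd _ (pow_dvd_pow p hq.le)]
      exact hij
    have := Fintype.ofFinite (Fin (p ^ r) → Option α)
    have hS : KnZ fun w : List α => oc (p ^ r) (at1 Ψ R) w.reverse := by
      have h1 : KnZ fun w : List α => ∑ W : Fin (p ^ r) → Option α,
          if (fun i : Fin (p ^ s) => W ⟨i.1, by omega⟩) = ρ ∧ W ≠ R then
            oc (p ^ r) (at1 Ψ W) w.reverse else 0 := by
        apply knZ_sum
        intro W
        by_cases h : (fun i : Fin (p ^ s) => W ⟨i.1, by omega⟩) = ρ ∧ W ≠ R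
        · refine (ih (s + 1) (by omega) W (fun q hq hPer => ?_) Ψ hΨl).congr fun w => if_pos h
          exact h.2 (hRρ W (per_mono (pow_dvd_pow p (by omega)) hPer) h.1)
        · exact (KnZ.const 0).congr fun w => if_neg h
      refine (hρ.sub h1).congr fun w => ?_
      have h2 : oc (p ^ s) (at1 Ψ ρ) w.reverse = ∑ W : Fin (p ^ r) → Option α,
          if (fun i : Fin (p ^ s) => W ⟨i.1, by omega⟩) = ρ then
            oc (p ^ r) (at1 Ψ W) w.reverse else 0 := by
        have h3 : ∀ X : List α, (∑ W : Fin (p ^ r) → Option α,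
            if (fun i : Fin (p ^ s) => W ⟨i.1, by omega⟩) = ρ then
              oc (p ^ r) (at1 Ψ W) X else 0) =
            oc (p ^ r) (fun e W' => ∑ W : Fin (p ^ r) → Option α,
              if (fun i : Fin (p ^ s) => W ⟨i.1, by omega⟩) = ρ then at1 Ψ W e W' else 0) X := by
          intro X
          rw [oc_sum]
          refine Finset.sum_congr rfl fun W _ => ?_
          by_cases h : (fun i : Fin (p ^ s) => W ⟨i.1, by omega⟩) = ρ
          · rw [if_pos h]
            exact oc_congr (fun b Y => by rw [if_pos h]) X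
          · rw [if_neg h]
            exact (oc_zero (fun b Y => by rw [if_neg h]) X).symm
        rw [h3]
        apply oc_congr
        intro b Y
        rw [Finset.sum_eq_single (win (p ^ r) (b :: Y))]
        · show (if win (p ^ s) (b :: Y) = ρ then Ψ _ else 0) = _
          have h4 : (fun i : Fin (p ^ s) => win (p ^ r) (b :: Y) ⟨i.1, by omega⟩) =
              win (p ^ s) (b :: Y) := rfl
          rw [h4]
          by_cases h5 : win (p ^ s) (b :: Y) = ρ
          · rw [if_pos h5, if_pos h5]
            exact (if_pos rfl).symm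
          · rw [if_neg h5, if_neg h5]
        · intro W _ hW
          have h5 : at1 Ψ W (Y.length + 1) (win (p ^ r) (b :: Y)) = 0 := if_neg (Ne.symm hW)
          rw [h5, ite_self]
        · intro h; exact absurd (Finset.mem_univ _) h
      rw [h2, ← Finset.sum_sub_distrib]
      symm
      rw [Finset.sum_eq_single R]
      · have h6 : (fun i : Fin (p ^ s) => R ⟨i.1, by omega⟩) = ρ := rfl
        rw [if_pos h6, if_neg (fun h => h.2 rfl), sub_zero]
      · intro W _ hW
        by_cases h : (fun i : Fin (p ^ s) => W ⟨i.1, by omega⟩) = ρ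
        · rw [if_pos h, if_pos ⟨h, hW⟩, sub_self]
        · rw [if_neg h, if_neg (fun h' => h h'.1), sub_self]
      · intro h; exact absurd (Finset.mem_univ _) h
    apply KnZ.div (c := p ^ l) (pow_pos hp.out.pos _)
    refine ((KnZ.sum (Finset.range (p ^ l)) fun j _ => hd j).add hS).congr fun w => ?_
    rw [Finset.sum_sub_distrib, Finset.sum_const, Finset.card_range, ← oc_sum, nsmul_eq_mul]
    have h7 : oc (p ^ r) (fun e W => ∑ j ∈ Finset.range (p ^ l),
        at1 (fun e => ψ (e + p ^ s * j)) R e W) w.reverse = oc (p ^ r) (at1 Ψ R) w.reverse := by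
      apply oc_congr
      intro b Y
      unfold at1
      by_cases h : win (p ^ r) (b :: Y) = R
      · rw [if_pos h]
        exact Finset.sum_congr rfl fun j _ => if_pos h
      · rw [if_neg h]
        exact Finset.sum_eq_zero fun j _ => if_neg h
    rw [h7]
    ring

end main

/-- **all windows, all weights periodic modulo `p ^ l`** -/
theorem stB {p : ℕ} [hp : Fact p.Prime] (hA : StA) (hL : ∀ l, H434.LocK (p ^ l)) : H67.StB p := by
  intro α _ l N F hF
  have hNp : N < p ^ N := Nat.lt_pow_self hp.out.one_lt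
  have hle : N ≤ p ^ (N + l) := hNp.le.trans (Nat.pow_le_pow_right hp.out.pos (by omega))
  have h1 : KnZ fun w : List α => oc (p ^ (N + l))
      (fun e W => F e fun i => W ⟨i.1, by omega⟩) w.reverse := by
    apply split
    intro R
    exact main hA hL (l := l) (r := N + l) (by omega) (N + l) 0 (by omega) R
      (fun q hq => absurd hq (Nat.not_lt_zero q)) _ fun e => hF e _
  refine h1.congr fun w => ?_
  apply oc_congr
  intro b Y
  rfl

end Vale.Agent.P329.H672.StB
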