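import Vale.Agent.P329.H672.Flow

set_option linter.all false

/-!
Window systems for all power-free words of length `a`.
-/

namespace Vale.Agent.P329.H672

open Vale.Agent.P329 Vale.Agent.P329.Slow Vale.Agent.P329.Mark

/-- the data: two rules, and window systems for all power-free words of length `a` -/
structure Dat {α V : Type} [AddCommGroup V] (M : α → V →+ V) where
  a : ℕ
  b : ℕ
  a' : ℕ
  b' : ℕ
  c : ℕ
  N : ℕ
  t : List α → List α
  t' : List α → List α
  n : List α → ℕ
  L : List α → Unit × V → List α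
  R : List α → Unit × V → List α
  val : List α → Unit × V → V
  mw : List α → List α
  sys : ∀ s, s.length = a → Free N s → Sys (n s) (L s) (R s)
  mkk : ∀ s, s.length = a → Free N s → Mk M (n s) (L s) (R s) (val s) (fun _ : Unit => mw s)
  mkp : ∀ s, s.length = a → Free N s → mw s <+: s
  len : ∀ s, s.length = a → Free N s → 4 * n s ≤ a

theorem base_one (v N K : ℕ) : ∃ C : ℕ, 0 < C ∧ K ≤ C ∧ ∀ (α V : Type) [Fintype V] [AddCommGroup V]
    (M : α → V →+ V) (s : List α), Fintype.card V ≤ v → C ≤ s.length → Free N s →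
      ∃ (n : ℕ) (L R : Unit × V → List α) (val : Unit × V → V) (mk : List α),
        Sys n L R ∧ Mk M n L R val (fun _ : Unit => mk) ∧ mk <+: s ∧ 4 * n ≤ s.length := by
  classical
  obtain ⟨C, hC⟩ := windows N
  obtain ⟨Λ, hΛC, hΛ⟩ := hC v
  refine ⟨Λ + 1 + K, by omega, by omega, fun α V _ _ M s hv hs hf => ?_⟩
  have hs' : Λ ≤ s.length := by omega
  obtain ⟨l, hl, hl4, y, h1, h2, h3, h4, h5⟩ := hΛ (Unit × V)
    (by rw [Fintype.card_prod, Fintype.card_unit, one_mul]; exact hv) (Option α)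
    (fun _ y => s[y]?) (fun i => hf.pf hs')
  have h : ∀ q : Unit, 4 * l ≤ ((fun _ : Unit => s) q).length := fun q => hl4.trans hs'
  have S := window_sys (s := fun _ : Unit => s) hl h h1 h2 h4 h5
  have K := window_mk (s := fun _ : Unit => s) M hl h h3
  exact ⟨l, _, _, _, s.take (4 * l), S, K, List.take_prefix _ _, hl4.trans hs'⟩

theorem dat_exists (v N K : ℕ) : ∃ C : ℕ, 0 < C ∧ K ≤ C ∧ ∀ (α V : Type) [Fintype V] [AddCommGroup V]
    (M : α → V →+ V) (b a' b' c : ℕ) (t t' : List α → List α), Fintype.card V ≤ v →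
      ∃ D : Dat M, D.a = C ∧ D.b = b ∧ D.a' = a' ∧ D.b' = b' ∧ D.c = c ∧ D.N = N ∧ D.t = t ∧
        D.t' = t' := by
  classical
  obtain ⟨C, hC0, hCK, hC⟩ := base_one v N K
  refine ⟨C, hC0, hCK, fun α V _ _ M b a' b' c t t' hv => ?_⟩
  have h1 : ∀ s : List α, ∃ (n : ℕ) (L R : Unit × V → List α) (val : Unit × V → V)
      (mk : List α), s.length = C → Free N s → (Sys n L R ∧
        Mk M n L R val (fun _ : Unit => mk) ∧ mk <+: s ∧ 4 * n ≤ s.length) := by
    intro s
    by_cases h : s.length = C ∧ Free N s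
    · obtain ⟨n, L, R, val, mk, h2⟩ := hC α V M s hv h.1.ge h.2
      exact ⟨n, L, R, val, mk, fun _ _ => h2⟩
    · exact ⟨0, fun _ => [], fun _ => [], fun _ => 0, [], fun h2 h3 => absurd ⟨h2, h3⟩ h⟩
  choose n L R val mk h2 using h1
  exact ⟨{ a := C, b := b, a' := a', b' := b', c := c, N := N, t := t, t' := t'
           n := n, L := L, R := R, val := val, mw := mk,
           sys := fun s hs hf => (h2 s hs hf).1
           mkk := fun s hs hf => (h2 s hs hf).2.1
           mkp := fun s hs hf => (h2 s hs hf).2.2.1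
           len := fun s hs hf => hs ▸ (h2 s hs hf).2.2.2 }, rfl, rfl, rfl, rfl, rfl, rfl, rfl, rfl⟩

end Vale.Agent.P329.H672
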