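import Vale.Agent.P329.H672.Per
import Vale.Agent.P329.H742.Cov

set_option linter.all false

/-!
Every long power-free word contains a zone of one of finitely many types.
-/

namespace Vale.Agent.P329.H672

open Vale.Agent.P329 Vale.Agent.P329.Slow Vale.Agent.P329.Mark Vale.Agent.P329.Clock
open Vale.Agent.P329.H742 (Rec)

variable {α : Type}

open Classical in
/-- some word without `N`-th powers in a set of words -/
noncomputable def sel (N : ℕ) (S : Set (List α)) : List α :=
  if h : ∃ s ∈ S, Free N s then h.choose else []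

theorem sel_spec {N : ℕ} {S : Set (List α)} (h : ∃ s ∈ S, Free N s) :
    sel N S ∈ S ∧ Free N (sel N S) := by
  rw [sel, dif_pos h]
  exact h.choose_spec

/-- the factors of length `a` -/
def Fac (a : ℕ) (g : List α) : Set (List α) := {s | s <:+: g ∧ s.length = a}

/-- choose a factor of length `a` depending only on the set of these factors -/
noncomputable def rule (N a : ℕ) (f : List α) : List α := sel N (Fac a f)

theorem rule_eq {a b N : ℕ} {g f : List α} (h : Rec a b g) (hf : f <:+: g) (hb : f.length = b) :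
    rule N a f = sel N (Fac a g) := by
  rw [rule]
  congr 1
  ext s
  exact ⟨fun h1 => ⟨h1.1.trans hf, h1.2⟩, fun h1 => ⟨h s f h1.1 h1.2 hf hb, h1.2⟩⟩

theorem infix_ext {a : ℕ} {g s : List α} (hs : s <:+: g) (h1 : s.length ≤ a)
    (h2 : a ≤ g.length) : ∃ f, s <:+: f ∧ f <:+: g ∧ f.length = a := by
  obtain ⟨p, q, hpq⟩ := hs
  have hl := congrArg List.length hpq
  rw [List.length_append, List.length_append] at hl
  by_cases h : p.length + a ≤ g.length
  · refine ⟨s ++ q.take (a - s.length), (List.prefix_append _ _).isInfix, ?_, ?_⟩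
    · refine ⟨p, q.drop (a - s.length), ?_⟩
      rw [← hpq]
      simp only [List.append_assoc, List.take_append_drop]
    · rw [List.length_append, List.length_take]; omega
  · refine ⟨g.drop (g.length - a), ?_, (List.drop_suffix _ _).isInfix, ?_⟩
    · refine ⟨p.drop (g.length - a), q, ?_⟩
      obtain ⟨k, hk⟩ : ∃ k, k = g.length - a := ⟨_, rfl⟩
      rw [← hk, ← hpq, List.append_assoc, List.append_assoc,
        List.drop_append_of_le_length (by omega)]
    · rw [List.length_drop]; omega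

theorem Rec.le {a b c : ℕ} {g : List α} (h : Rec a b g) (hc : c ≤ a) (ha : a ≤ g.length) :
    Rec c b g := by
  intro s f hs hsc hf hfb
  obtain ⟨k, hk1, hk2, hk3⟩ := infix_ext hs (by omega) ha
  exact hk1.trans (h k f hk2 hk3 hf hfb)

theorem Rec.ge {a b c : ℕ} {g : List α} (h : Rec a b g) (hc : b ≤ c) : Rec a c g := by
  intro s f hs hsa hf hfb
  exact (h s (f.take b) hs hsa ((List.take_prefix _ _).isInfix.trans hf) (by
    rw [List.length_take]; omega)).trans (List.take_prefix _ _).isInfix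

open Classical in
/-- some word without small periods in a set of words -/
noncomputable def sel2 (D c : ℕ) (S : Set (List α)) : List α :=
  if h : ∃ X ∈ S, NP D (X.take c) then h.choose else []

theorem sel2_spec {D c : ℕ} {S : Set (List α)} (h : ∃ X ∈ S, NP D (X.take c)) :
    sel2 D c S ∈ S ∧ NP D ((sel2 D c S).take c) := by
  rw [sel2, dif_pos h]
  exact h.choose_spec

/-- choose a factor without small periods depending only on the set of these factors -/
noncomputable def rule2 (D c a : ℕ) (f : List α) : List α := sel2 D c (Fac a f)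

theorem rule2_eq {a b c D : ℕ} {g f : List α} (h : Rec a b g) (hf : f <:+: g)
    (hb : f.length = b) : rule2 D c a f = sel2 D c (Fac a g) := by
  rw [rule2]
  congr 1
  ext s
  exact ⟨fun h1 => ⟨h1.1.trans hf, h1.2⟩, fun h1 => ⟨h s f h1.1 h1.2 hf hb, h1.2⟩⟩

theorem zone_of_rec {C b b' c a' N : ℕ} {g : List α} (hC : 0 < C) (hb0 : C ≤ b)
    (ha' : a' = c + 4 * C * b) (hg1 : Rec C b g) (hg2 : Rec a' b' g)
    (hl : 4 * a' + 13 * b + 6 * b' ≤ g.length) (h1 : ∃ s ∈ Fac C g, Free N s)
    (h2 : ∃ X ∈ Fac a' g, NP (4 * C * b + 2 * b) (X.take c)) :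
    ZR C N b c a' b' (rule N C) (rule2 (4 * C * b + 2 * b) c a') g := by
  have hCb : b ≤ C * b := Nat.le_mul_of_pos_left b hC
  have h4C : 4 * C * b = 4 * (C * b) := Nat.mul_assoc _ _ _
  obtain ⟨hs1, hs2⟩ := sel_spec h1
  obtain ⟨X, hXd⟩ : ∃ X, X = sel2 (4 * C * b + 2 * b) c (Fac a' g) := ⟨_, rfl⟩
  have hX := sel2_spec h2
  rw [← hXd] at hX
  obtain ⟨s, hsd⟩ : ∃ s, s = sel N (Fac C g) := ⟨_, rfl⟩
  rw [← hsd] at hs1 hs2
  obtain ⟨k, hk⟩ : ∃ k, k = 2 * (a' + 3 * b + b') + (b + b') := ⟨_, rfl⟩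
  have hkl : k + b' + 2 * (a' + 3 * b + b') ≤ g.length := by omega
  obtain ⟨p, q, hpq⟩ := hg2 X ((g.drop k).take b') hX.1.1 hX.1.2
    ((List.take_prefix _ _).isInfix.trans (List.drop_suffix _ _).isInfix) (by
      rw [List.length_take, List.length_drop]; omega)
  have hpql := congrArg List.length hpq
  rw [List.length_append, List.length_append, List.length_take, List.length_drop] at hpql
  have hXl := hX.1.2
  obtain ⟨G, hG⟩ : ∃ G, G = g.take k ++ p := ⟨_, rfl⟩
  obtain ⟨Q, hQ⟩ : ∃ Q, Q = q ++ (g.drop k).drop b' := ⟨_, rfl⟩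
  have hgd : g = G ++ X ++ Q := by
    have e1 : g = g.take k ++ ((g.drop k).take b' ++ (g.drop k).drop b') := by
      rw [List.take_append_drop, List.take_append_drop]
    rw [hG, hQ]
    conv_lhs => rw [e1, ← hpq]
    simp only [List.append_assoc]
  have hGl : k ≤ G.length := by
    rw [hG, List.length_append, List.length_take]; omega
  have hQl : 2 * (a' + 3 * b + b') ≤ Q.length := by
    rw [hQ, List.length_append, List.length_drop, List.length_drop]; omega
  -- the places
  have hp : ∀ i : Fin C, ∃ o, c + b + 4 * b * i ≤ o ∧ o ≤ c + b + 4 * b * i + b ∧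
      s <+: X.drop o := by
    intro i
    have h3 : 4 * b * (i + 1) ≤ 4 * b * C := Nat.mul_le_mul_left _ i.2
    have h5 : 4 * b * C = 4 * (C * b) := by ring
    rw [Nat.mul_add] at h3
    obtain ⟨p, q, hpq⟩ := hg1 s ((X.drop (c + b + 4 * b * i)).take b) hs1.1 hs1.2
      (((List.take_prefix _ _).isInfix.trans (List.drop_suffix _ _).isInfix).trans hX.1.1) (by
        rw [List.length_take, List.length_drop]; omega)
    have h4 := congrArg List.length hpq
    rw [List.length_append, List.length_append, List.length_take, List.length_drop] at h4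
    refine ⟨c + b + 4 * b * i + p.length, by omega, by omega, ?_⟩
    rw [← List.drop_drop]
    have h6 : X.drop (c + b + 4 * b * i) =
        p ++ (s ++ (q ++ (X.drop (c + b + 4 * b * i)).drop b)) := by
      rw [← List.append_assoc, ← List.append_assoc, hpq, List.take_append_drop]
    rw [h6, List.drop_left]
    exact List.prefix_append _ _
  choose o ho1 ho2 ho3 using hp
  refine ⟨G.take (G.length - (b + b')), G.drop (G.length - (b + b')), X, Q, s, 4 * C * b, o,
    ?_, ?_, ?_, hXl, hQl, hs1.2, hs2, ?_, ?_, ?_, hX.2, ?_⟩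
  · rw [List.take_append_drop, ← hgd]
  · rw [List.length_take]; omega
  · rw [List.length_drop]; omega
  · intro f hf hfb
    rw [hsd]
    exact rule_eq hg1 hf hfb
  · intro i
    have h3 : 4 * b * (i + 1) ≤ 4 * b * C := Nat.mul_le_mul_left _ i.2
    have h5 : 4 * b * C = 4 * (C * b) := by ring
    rw [Nat.mul_add] at h3
    have := ho1 i
    have := ho2 i
    exact ⟨by omega, by omega, ho3 i⟩
  · intro i j hij
    have h3 : 4 * b * ((i : ℕ) + 1) ≤ 4 * b * j := Nat.mul_le_mul_left _ hij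
    rw [Nat.mul_add] at h3
    have := ho2 i
    have := ho1 j
    omega
  · intro t f ht hf hfb
    rw [hXd]
    refine rule2_eq hg2 (hf.isInfix.trans ?_) hfb
    refine List.IsInfix.trans ?_ (⟨[], Q, by rw [List.nil_append, ← hgd]⟩ : G ++ X <:+: g)
    refine ⟨G.take (G.length - (b + b')), X.drop t, ?_⟩
    rw [← List.append_assoc, List.take_append_drop, List.append_assoc, List.take_append_drop]

/-- finitely many scales suffice for all long words without high powers -/
theorem cover_zones [Finite α] (C N : ℕ) (hC : 0 < C) :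
    ∃ (S : Finset (ℕ × ℕ × ℕ × ℕ)) (ρ ρ' : ℕ × ℕ × ℕ × ℕ → List α → List α) (K : ℕ),
      (∀ q ∈ S, C ≤ q.1) ∧ ∀ w : List α, K ≤ w.length → Free N w → ∃ q ∈ S, ∃ g, g <:+: w ∧
        ZR C N q.1 q.2.1 q.2.2.1 q.2.2.2 (ρ q) (ρ' q) g := by
  classical
  cases nonempty_fintype α
  obtain ⟨Q, M, hQ, hM⟩ := H742.cover (α := α) (8 * ((N + 1) * (4 * C + 2) + 4 * C))
  refine ⟨Q.image (fun q => (q.2.1, (N + 1) * (4 * C * q.2.1 + 2 * q.2.1),
    (N + 1) * (4 * C * q.2.1 + 2 * q.2.1) + 4 * C * q.2.1, q.2.2.2)), fun _ => rule N C,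
    fun q => rule2 (4 * C * q.1 + 2 * q.1) q.2.1 q.2.2.1, M, ?_, ?_⟩
  · intro q hq
    obtain ⟨q', hq', rfl⟩ := Finset.mem_image.1 hq
    have := hQ _ hq'
    show C ≤ q'.2.1
    omega
  · intro w hw hf
    obtain ⟨q, hq, g, hgw, hgl, h1, h2⟩ := hM w hw
    refine ⟨_, Finset.mem_image_of_mem _ hq, g, hgw, ?_⟩
    obtain ⟨h3, h4, h5, h6⟩ := hQ q hq
    obtain ⟨b, hb⟩ : ∃ b, b = q.2.1 := ⟨_, rfl⟩
    obtain ⟨b', hb'⟩ : ∃ b', b' = q.2.2.2 := ⟨_, rfl⟩
    obtain ⟨D, hD⟩ : ∃ D, D = 4 * C * b + 2 * b := ⟨_, rfl⟩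
    obtain ⟨c, hc⟩ : ∃ c, c = (N + 1) * D := ⟨_, rfl⟩
    have e1 : 8 * ((N + 1) * (4 * C + 2) + 4 * C) * b = 8 * (c + 4 * C * b) := by
      rw [hc, hD]; ring
    have e2 : b ≤ C * b := Nat.le_mul_of_pos_left b hC
    have e3 : 4 * C * b = 4 * (C * b) := Nat.mul_assoc _ _ _
    have e4 : D ≤ (N + 1) * D := Nat.le_mul_of_pos_left D (Nat.succ_pos _)
    rw [← hb] at h4 h5 h1
    rw [← hb'] at h6 hgl h2
    rw [e1] at h5
    have hg : Free N g := Free.factor hf hgw
    have key : ZR C N b c (c + 4 * C * b) b' (rule N C)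
        (rule2 (4 * C * b + 2 * b) c (c + 4 * C * b)) g := by
      refine zone_of_rec hC (by omega) rfl (Rec.le h1 (by omega) (by omega))
        (Rec.le h2 (by omega) (by omega)) (by omega) ⟨g.take C, ⟨(List.take_prefix _ _).isInfix,
          by rw [List.length_take]; omega⟩, Free.factor hg (List.take_prefix _ _).isInfix⟩
        ⟨g.take (c + 4 * C * b), ⟨(List.take_prefix _ _).isInfix,
          by rw [List.length_take]; omega⟩, ?_⟩
      refine NP_of_free (Free.factor hg (List.take_prefix _ _).isInfix) ?_ (by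
        rw [List.length_take]; omega)
      rw [← hD, hc]
    rw [hc, hD, hb, hb'] at key
    exact key

/-- long words with a given recurrence function -/
theorem rec_zones {C : ℕ} (hC : 0 < C) (N : ℕ) (R : ℕ → ℕ) : ∃ l D b c a' b' : ℕ, C ≤ b ∧
    ∀ (α : Type) (g : List α), l ≤ g.length → (∃ s, s <:+: g ∧ s.length = C ∧ Free N s) →
      NP D g → (∀ a, Rec a (R a) g) →
        ZR C N b c a' b' (rule N C) (rule2 (4 * C * b + 2 * b) c a') g := by
  obtain ⟨b, hb⟩ : ∃ b, b = R C + C := ⟨_, rfl⟩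
  obtain ⟨D, hD⟩ : ∃ D, D = 4 * C * b + 2 * b := ⟨_, rfl⟩
  obtain ⟨c, hc⟩ : ∃ c, c = 2 * D + 1 := ⟨_, rfl⟩
  obtain ⟨a', ha'⟩ : ∃ a', a' = c + 4 * C * b := ⟨_, rfl⟩
  obtain ⟨b', hb'⟩ : ∃ b', b' = R a' := ⟨_, rfl⟩
  refine ⟨4 * a' + 13 * b + 6 * b' + R c, D, b, c, a', b', by omega, fun α g h1 h2 h3 h4 => ?_⟩
  obtain ⟨s, hs1, hs2, hs3⟩ := h2
  refine zone_of_rec hC (by omega) ha' (Rec.ge (h4 C) (by omega)) (Rec.ge (h4 a') (by omega))
    (by omega) ⟨s, ⟨hs1, hs2⟩, hs3⟩ ?_
  obtain ⟨Y, hY1, hY2, hY3⟩ := NP_factor h3 hc.ge (by omega)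
  obtain ⟨p, q, hpq⟩ := h4 c Y (g.take (R c)) hY1 hY2 (List.take_prefix _ _).isInfix (by
    rw [List.length_take]; omega)
  have hpql := congrArg List.length hpq
  rw [List.length_append, List.length_append, List.length_take] at hpql
  have hg : g = p ++ (Y ++ (q ++ g.drop (R c))) := by
    conv_lhs => rw [← List.take_append_drop (R c) g, ← hpq]
    simp only [List.append_assoc]
  have hgl := congrArg List.length hg
  rw [List.length_append, List.length_append] at hgl
  refine ⟨Y ++ (q ++ g.drop (R c)).take (a' - c), ⟨?_, ?_⟩, ?_⟩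
  · refine ⟨p, (q ++ g.drop (R c)).drop (a' - c), ?_⟩
    rw [List.append_assoc, List.append_assoc, List.take_append_drop, ← hg]
  · rw [List.length_append, List.length_take]
    omega
  · rw [← hD, List.take_append_of_le_length (by omega), List.take_of_length_le (by omega)]
    exact hY3

end Vale.Agent.P329.H672
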