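import Vale.Agent.P329.H672.Rules

set_option linter.all false

/-!
Sums of transported jumps.
-/

namespace Vale.Agent.P329.H672

open Vale.Agent.P329 Vale.Agent.P329.Slow Vale.Agent.P329.Mark

section sums

variable {α V : Type} [AddCommGroup V] (M : α → V →+ V)

/-- the sum of the transported jumps -/
def TJ (J : List α → List α → V) (w : List α) : V :=
  ∑ t ∈ Finset.range (w.length + 1), act M (w.drop t) (J (w.take t) (w.drop t))

/-- the sum of the transported jumps before the end -/
def TS (J : List α → List α → V) (w : List α) : V :=
  ∑ t ∈ Finset.range w.length, act M (w.drop t) (J (w.take t) (w.drop t))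

theorem TJ_eq (J : List α → List α → V) (w : List α) : TJ M J w = TS M J w + J w [] := by
  rw [TJ, Finset.sum_range_succ, TS, List.drop_length, List.take_length]
  rfl

theorem TJ_append (J : List α → List α → V) (u z : List α) :
    TJ M J (u ++ z) = act M z (TS M (fun p x => J p (x ++ z)) u) +
      TJ M (fun p x => J (u ++ p) x) z := by
  have e1 : (u ++ z).length + 1 = u.length + (z.length + 1) := by
    rw [List.length_append]; omega
  rw [TJ, e1, Finset.sum_range_add, TS, act_sum, TJ]
  congr 1
  · refine Finset.sum_congr rfl fun t ht => ?_
    have ht' := Finset.mem_range.1 ht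
    rw [List.drop_append_of_le_length ht'.le, List.take_append_of_le_length ht'.le, act_append]
  · refine Finset.sum_congr rfl fun t ht => ?_
    have e4 : (u ++ z).drop (u.length + t) = z.drop t := by
      rw [List.drop_append, List.drop_of_length_le (by omega)]; simp
    have e5 : (u ++ z).take (u.length + t) = u ++ z.take t := by
      rw [List.take_append, List.take_of_length_le (by omega)]; simp
    rw [e4, e5]

theorem TS_append (J : List α → List α → V) (u z : List α) :
    TS M J (u ++ z) = act M z (TS M (fun p x => J p (x ++ z)) u) +
      TS M (fun p x => J (u ++ p) x) z := by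
  have h1 := TJ_append M J u z
  rw [TJ_eq, TJ_eq] at h1

  rw [← add_assoc] at h1
  exact add_right_cancel h1

theorem TS_congr {J J' : List α → List α → V} {w : List α}
    (h : ∀ p x, p ++ x = w → x ≠ [] → J p x = J' p x) : TS M J w = TS M J' w := by
  refine Finset.sum_congr rfl fun t ht => ?_
  have ht' := Finset.mem_range.1 ht
  rw [h _ _ (List.take_append_drop t w) (by
    intro h0
    have := congrArg List.length h0
    rw [List.length_drop, List.length_nil] at this
    omega)]

theorem TJ_congr {J J' : List α → List α → V} {w : List α}
    (h : ∀ p x, p ++ x = w → J p x = J' p x) : TJ M J w = TJ M J' w := by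
  refine Finset.sum_congr rfl fun t ht => ?_
  rw [h _ _ (List.take_append_drop t w)]

theorem TS_zero {J : List α → List α → V} {w : List α}
    (h : ∀ p x, p ++ x = w → x ≠ [] → J p x = 0) : TS M J w = 0 := by
  rw [TS_congr M h, TS]
  exact Finset.sum_eq_zero fun t _ => act_zero M _

theorem TJ_zero {J : List α → List α → V} {w : List α}
    (h : ∀ p x, p ++ x = w → J p x = 0) : TJ M J w = 0 := by
  rw [TJ_congr M h, TJ]
  exact Finset.sum_eq_zero fun t _ => act_zero M _

theorem TS_add (J J' : List α → List α → V) (w : List α) :
    TS M (fun p x => J p x + J' p x) w = TS M J w + TS M J' w := by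
  rw [TS, TS, TS, ← Finset.sum_add_distrib]
  exact Finset.sum_congr rfl fun t _ => act_add M _ _ _

theorem TJ_add (J J' : List α → List α → V) (w : List α) :
    TJ M (fun p x => J p x + J' p x) w = TJ M J w + TJ M J' w := by
  rw [TJ, TJ, TJ, ← Finset.sum_add_distrib]
  exact Finset.sum_congr rfl fun t _ => act_add M _ _ _

theorem TS_sub (J J' : List α → List α → V) (w : List α) :
    TS M (fun p x => J p x - J' p x) w = TS M J w - TS M J' w := by
  rw [TS, TS, TS, ← Finset.sum_sub_distrib]
  exact Finset.sum_congr rfl fun t _ => act_sub M _ _ _

/-- a single jump -/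
theorem TJ_single {F : List α → V} {k : ℕ} {w : List α} (hk : k ≤ w.length) :
    TJ M (fun p _ => if p.length = k then F p else 0) w = act M (w.drop k) (F (w.take k)) := by
  rw [TJ, Finset.sum_eq_single k]
  · rw [if_pos (by rw [List.length_take]; omega)]
  · intro t ht hne
    have ht' := Finset.mem_range.1 ht
    rw [if_neg (by rw [List.length_take]; omega), act_zero]
  · intro h
    exact absurd (Finset.mem_range.2 (by omega)) h

/-- jumps which depend only on short left parts, inside a prefix -/
theorem TJ_short {J : List α → List α → V} {y z : List α} {b : ℕ} (hb : b ≤ y.length)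
    (h0 : ∀ p x, b ≤ p.length → J p x = 0)
    (h1 : ∀ p x, p ++ x = y → p.length < b → J p (x ++ z) = J p x) :
    TJ M J (y ++ z) = act M z (TJ M J y) := by
  rw [TJ_append, TJ_zero M (J := fun p x => J (y ++ p) x) (fun p x _ => h0 _ _ (by
    rw [List.length_append]; omega)), add_zero, TJ_eq, h0 y [] hb, add_zero]
  congr 1
  refine TS_congr M fun p x hpx _ => ?_
  by_cases hp : p.length < b
  · exact h1 p x hpx hp
  · rw [h0 p _ (by omega), h0 p _ (by omega)]

/-- jumps which depend only on short right parts -/
theorem TS_short {J : List α → List α → V} {u y : List α} {b : ℕ} (hb : b ≤ y.length)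
    (h0 : ∀ p x, b ≤ x.length → J p x = 0) :
    TS M J (u ++ y) = TS M (fun p x => J (u ++ p) x) y := by
  rw [TS_append, TS_zero M (J := fun p x => J p (x ++ y)) (fun p x _ _ => h0 _ _ (by
    rw [List.length_append]; omega)), act_zero, zero_add]

end sums

end Vale.Agent.P329.H672
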