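import Vale.Agent.P329.H672.Thin

set_option linter.all false

/-!
Correction jumps.
-/

namespace Vale.Agent.P329.H672

open Vale.Agent.P329 Vale.Agent.P329.Slow Vale.Agent.P329.Mark

section form

variable {α V : Type} [AddCommGroup V] [Fintype V] {M : α → V →+ V}

open Classical in
/-- jumps visible at the end of `u` which are not yet made -/
noncomputable def pend (D : Dat M) (s u : List α) : V :=
  TS M (fun p x => if x.length < D.b then Js D s p x else 0) u

open Classical in
/-- jumps visible at the beginning of `z` which are not made without the left part -/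
noncomputable def rp (D : Dat M) (s z : List α) : V :=
  TJ M (fun p x => if p.length < D.b then Js D s p x else 0) z

/-- the value at the left name -/
noncomputable def lam (D : Dat M) (r : List α × V) (u : List α) : V :=
  D.val (mo D r.1) (nt D r.1 r.2).1 - pend D (mo D r.1) u

/-- the value at the right name -/
noncomputable def rv (D : Dat M) (r : List α × V) : V :=
  D.val (mo D r.1) (nt D r.1 r.2).1

open Classical in
noncomputable def nL (D : Dat M) (q y : List α) : V :=
  TS M (fun p x => if x.length < D.b then cr D p (x ++ y) else 0) q

open Classical in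
noncomputable def nR (D : Dat M) (q y : List α) : V :=
  TJ M (fun p x => if p.length < D.b then cr D (q ++ p) x else 0) y

/-- the correction -/
noncomputable def form (D : Dat M) (r r' : List α × V) (q y : List α) : V :=
  act M y (rv D r') + rp D (mo D r'.1) y -
    (act M y (lam D r q + nL D q y) + nR D q y)

open Classical in
noncomputable def DD (D : Dat M) (q y : List α) : V :=
  if h : ∃ rr : (List α × V) × (List α × V), PLw D (om D) rr.1 q ∧
    PRw D (om D) rr.2 y then form D h.choose.1 h.choose.2 q y else 0

open Classical in
/-- the correction is made at distance `b + b'` after the place -/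
noncomputable def Dc (D : Dat M) (p : List α) : V :=
  if om D ≤ p.length then DD D (p.take (p.length - (om D)))
    (p.drop (p.length - (om D))) else 0

variable {D : Dat M}

theorem Hyp.b2 (H : Hyp D) : 3 * D.b ≤ om D := by
  unfold om
  omega

theorem om_ge : D.b + D.b' ≤ om D := by unfold om; omega

theorem om_ge' : D.a' ≤ om D := by unfold om; omega

theorem DD_eq (H : Hyp D) {r r' : List α × V} {q y : List α}
    (h : PLw D (om D) r q) (h' : PRw D (om D) r' y) :
    DD D q y = form D r r' q y := by
  have h1 : ∃ rr : (List α × V) × (List α × V), PLw D (om D) rr.1 q ∧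
    PRw D (om D) rr.2 y := ⟨(r, r'), h, h'⟩
  rw [DD, dif_pos h1]
  have h2 := h1.choose_spec
  have e1 : h1.choose.1 = r := h2.1.unique H h om_ge
  obtain ⟨e2, e3⟩ := h2.2.unique h'
  unfold form rv
  rw [e1, e2, e3]

theorem DD_none {q y : List α} (h : ∀ r r' : List α × V, PLw D (om D) r q →
    PRw D (om D) r' y → False) : DD D q y = 0 := by
  rw [DD, dif_neg]
  rintro ⟨⟨r, r'⟩, h1, h2⟩
  exact h r r' h1 h2

theorem Dc_append {q y : List α} (hy : y.length = om D) :
    Dc D (q ++ y) = DD D q y := by
  have e1 : (q ++ y).length - (om D) = q.length := by rw [List.length_append]; omega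
  rw [Dc, if_pos (by rw [List.length_append]; omega), e1, List.take_left, List.drop_left]

theorem pend_append (hab : D.a ≤ D.b) {s u k : List α} (hk : D.a + D.b ≤ k.length) :
    pend D s (u ++ k) = pend D s k := by
  unfold pend
  rw [TS_short M (b := D.b) (by omega) (fun p x hx => if_neg (by omega))]
  refine TS_congr M fun p x hpx _ => ?_
  by_cases hx : x.length < D.b
  · rw [if_pos hx, if_pos hx]
    have := congrArg List.length hpx
    rw [List.length_append] at this
    exact Js_left fun h1 h2 => (n_le _ h1 h2).trans (by omega)
  · rw [if_neg hx, if_neg hx]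

theorem nL_append (hab : D.a ≤ D.b) {u k y : List α} (hk : 2 * D.b ≤ k.length) :
    nL D (u ++ k) y = nL D k y := by
  unfold nL
  rw [TS_short M (b := D.b) (by omega) (fun p x hx => if_neg (by omega))]
  refine TS_congr M fun p x hpx _ => ?_
  by_cases hx : x.length < D.b
  · rw [if_pos hx, if_pos hx]
    have := congrArg List.length hpx
    rw [List.length_append] at this
    exact cr_left hab (by omega)
  · rw [if_neg hx, if_neg hx]

theorem nR_append (hab : D.a ≤ D.b) {u k y : List α} (hk : D.b ≤ k.length) :
    nR D (u ++ k) y = nR D k y := by
  unfold nR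
  refine TJ_congr M fun p x hpx => ?_
  rw [List.append_assoc, cr_left hab (by rw [List.length_append]; omega)]

theorem lam_append (hab : D.a ≤ D.b) {r : List α × V} {u k : List α} (hk : D.a + D.b ≤ k.length) :
    lam D r (u ++ k) = lam D r k := by
  rw [lam, lam, pend_append hab hk]

theorem form_append (hab : D.a ≤ D.b) {r r' : List α × V} {u k y : List α}
    (hk : 2 * D.b ≤ k.length) : form D r r' (u ++ k) y = form D r r' k y := by
  rw [form, form, lam_append hab (by omega), nL_append hab hk, nR_append hab (by omega)]

theorem DD_append (H : Hyp D) {u k y : List α}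
    (hk : om D ≤ k.length) : DD D (u ++ k) y = DD D k y := by
  have h2 := H.b2
  by_cases h : ∃ r r' : List α × V, PLw D (om D) r k ∧ PRw D (om D) r' y
  · obtain ⟨r, r', h4, h5⟩ := h
    rw [DD_eq H h4 h5, DD_eq H ((PLw.app_iff hk om_ge' om_ge).2 h4) h5,
      form_append H.hab (by omega)]
  · rw [DD_none fun r r' h4 h5 => h ⟨r, r', h4, h5⟩,
      DD_none fun r r' h4 h5 => h ⟨r, r', (PLw.app_iff hk om_ge' om_ge).1 h4, h5⟩]

/-- places inside a recurrent zone need no correction -/
theorem form_zero (H : Hyp D) {r r' : List α × V} {q y : List α}
    (h : PLw D (om D) r q) (h' : PRw D (om D) r' y) (hy : y.length = om D)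
    (hZ : Con D.t D.b (lst (om D) q ++ y)) : form D r r' q y = 0 := by
  have hab := H.hab
  have h2 := H.b2
  have hX := h.2.2.1
  have hb : 0 < D.b := lt_of_lt_of_le H.ha H.hab
  obtain ⟨s, hs⟩ : ∃ s, s = mo D (lst (om D) q ++ y) := ⟨_, rfl⟩
  have e1 : mo D r.1 = s := by
    rw [← h.2.2.2.1, hs]
    exact mo_eq hZ (List.prefix_append _ _).isInfix (by rw [lst_length h.1]; omega)
  have e2 : mo D r'.1 = s := by
    rw [hs, ← mo_eq hZ (List.suffix_append _ _).isInfix (by omega), ← h'.2.2.1]
    rw [List.take_of_length_le (by omega)]
  have hgood : s.length = D.a ∧ Free D.N s := e1 ▸ hX.good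
  have S := D.sys s hgood.1 hgood.2
  have hn := n_le (D := D) s hgood.1 hgood.2
  have hL : D.L s (nt D r.1 r.2).1 <:+ q := by
    have := (hX.L_suffix r.2).trans h.2.2.2.2.2
    rwa [e1] at this
  have hR : D.R s (nt D r'.1 r'.2).1 <+: y := by
    have := h'.2.2.2.2.2
    rwa [e2] at this
  -- left sums
  have eL : nL D q y = pend D s q := by
    unfold nL pend
    refine TS_congr M fun p x hpx hx0 => ?_
    have hpl := congrArg List.length hpx
    rw [List.length_append] at hpl
    have hql := h.1
    by_cases hx : x.length < D.b
    · rw [if_pos hx, if_pos hx]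
      rw [cr_deep hZ (by omega) (by rw [List.length_append]; omega) ?_, ← hs, Js_good hgood.1 hgood.2,
        Js_good hgood.1 hgood.2]
      · exact S.J_before (i := (nt D r.1 r.2).1) (by rw [hpx]; exact hL) hR
          (List.length_pos_iff.2 hx0)
      · -- windows
        have e3 : lst D.b p ++ x <:+ lst (om D) q := by
          have t1 : lst D.b p ++ x <:+ q := by
            rw [← hpx]
            obtain ⟨t, ht⟩ := lst_suffix D.b p
            exact ⟨t, by rw [← List.append_assoc, ht]⟩
          refine List.suffix_of_suffix_length_le t1 (lst_suffix _ _) ?_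
          rw [List.length_append, lst_length (by omega), lst_length hql]
          omega
        have e4 : (x ++ y).take D.b = x ++ y.take (D.b - x.length) := by
          rw [List.take_append, List.take_of_length_le hx.le]
        rw [e4, ← List.append_assoc]
        obtain ⟨t, ht⟩ := e3
        refine ⟨t, y.drop (D.b - x.length), ?_⟩
        rw [← ht]
        simp only [List.append_assoc, List.take_append_drop]
    · rw [if_neg hx, if_neg hx]
  have eR : nR D q y = act M y (D.val s (nt D r'.1 r'.2).1 - D.val s (nt D r.1 r.2).1) +
      rp D s y := by
    have e5 : nR D q y = TJ M (fun p x => (if p.length = 0 then Js D s q y else 0) +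
        (if p.length < D.b then Js D s p x else 0)) y := by
      unfold nR
      refine TJ_congr M fun p x hpx => ?_
      have hpl := congrArg List.length hpx
      rw [List.length_append] at hpl
      have hql := h.1
      by_cases hp : p.length < D.b
      · rw [if_pos hp, if_pos hp, cr_deep hZ (by rw [List.length_append]; omega) (by omega) ?_,
          ← hs]
        · by_cases hp0 : p.length = 0
          · rw [if_pos hp0]
            have hp1 := List.length_eq_zero_iff.1 hp0
            subst hp1
            rw [Js_nil_left, add_zero, List.append_nil]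
            rw [List.nil_append] at hpx
            rw [hpx]
          · rw [if_neg hp0, zero_add, Js_good hgood.1 hgood.2, Js_good hgood.1 hgood.2]
            exact S.J_after (j := (nt D r'.1 r'.2).1) hL (by rw [hpx]; exact hR) (by omega)
        · -- windows
          have e6 : lst D.b (q ++ p) = lst (D.b - p.length) q ++ p :=
            lst_split hp.le (by rw [List.length_append]; omega)
          have e7 : lst (D.b - p.length) q <:+ lst (om D) q :=
            List.suffix_of_suffix_length_le (lst_suffix _ _) (lst_suffix _ _) (by
              rw [lst_length (by omega), lst_length hql]; omega)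
          obtain ⟨t, ht⟩ := e7
          rw [e6]
          refine ⟨t, x.drop D.b, ?_⟩
          rw [← hpx, ← ht]
          simp only [List.append_assoc, List.take_append_drop]
      · rw [if_neg hp, if_neg hp, if_neg (by omega), add_zero]
    rw [e5, TJ_add]
    congr 1
    rw [TJ_single M (F := fun _ => Js D s q y) (Nat.zero_le _), List.drop_zero,
      Js_good hgood.1 hgood.2, S.J_some hL hR]
  unfold form lam rv
  rw [e1, e2, eL, eR, sub_add_cancel, act_sub]
  abel

end form

end Vale.Agent.P329.H672
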