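import Vale.Agent.P329.H672.Form

set_option linter.all false

/-!
Separation and junctions.
-/

namespace Vale.Agent.P329.H672

open Vale.Agent.P329 Vale.Agent.P329.Slow Vale.Agent.P329.Mark Vale.Agent.P329.Clock

section junc

variable {α V : Type} [AddCommGroup V] [Fintype V] {M : α → V →+ V} 

/-- the flow -/
noncomputable def EE (D : Dat M) (w : List α) (x : V) : V :=
  act M w x + TJ M (cr D) w + TJ M (fun p _ => Dc D p) w

/-- the value at the end of `z`, from the right name -/
noncomputable def Psi (D : Dat M) (r : List α × V) (z : List α) : V :=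
  act M z (rv D r) + rp D (mo D r.1) z + TJ M (cr D) z +
    TJ M (fun p _ => Dc D p) z

variable {D : Dat M}

theorem exists_suffix_split {k : ℕ} {u : List α} (h : k ≤ u.length) :
    ∃ q y, u = q ++ y ∧ y.length = k :=
  ⟨u.take (u.length - k), u.drop (u.length - k), (List.take_append_drop _ _).symm, by
    rw [List.length_drop]; omega⟩

/-- separation, places before the junction -/
theorem sep_left (H : Hyp D) {r : List α × V} {u p : List α}
    (h : PLw D (2 * om D) r u) (hp0 : 0 < p.length) (hp : p.length < om D) :
    Dc D (u ++ p) = 0 := by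
  have hab := H.hab
  have h2 := H.b2
  have hul := h.1
  obtain ⟨q, y, rfl, hy⟩ := exists_suffix_split (k := om D - p.length) (u := u) (by omega)
  rw [List.append_assoc, Dc_append (by rw [List.length_append]; omega)]
  by_cases hn : ∃ r1 r1' : List α × V, PLw D (om D) r1 q ∧
    PRw D (om D) r1' (y ++ p)
  swap
  · exact DD_none fun r1 r2 h3 h4 => hn ⟨r1, r2, h3, h4⟩
  obtain ⟨r1, r1', h3, h4⟩ := hn
  by_cases hyb : y.length < D.b
  · -- sparse
    have h5 := thin H h3 (h.mono (ω' := om D) (by omega) (by omega)) hyb om_ge
    have := List.length_eq_zero_iff.2 h5.1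
    omega
  · push Not at hyb
    rw [DD_eq H h3 h4]
    refine form_zero H h3 h4 (by rw [List.length_append]; omega) ?_
    rw [← List.append_assoc]
    refine Con.union ?_ ?_ hyb
    · refine h.2.1.sub ?_
      have e1 : lst (om D) q ++ y = lst (om D + y.length) (q ++ y) := by
        rw [lst_split (by omega) (by rw [List.length_append]; have := h3.1; omega)]
        congr 2
        omega
      rw [e1]
      exact lst_infix_of_le (by omega) hul
    · have h5 := h4.2.1
      rwa [List.take_of_length_le (by rw [List.length_append]; omega)] at h5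

/-- separation, places after the junction -/
theorem sep_right (H : Hyp D) {r r' : List α × V} {u p z : List α}
    (h : PLw D (2 * om D) r u) (h' : PRw D (2 * om D) r' z)
    (hpz : p <+: z) (hp0 : om D < p.length) (hp : p.length < 2 * om D) :
    Dc D (u ++ p) = 0 := by
  have hab := H.hab
  have h2 := H.b2
  have hul := h.1
  obtain ⟨y1, y2, rfl, hy⟩ := exists_suffix_split (k := om D) (u := p) (by omega)
  rw [List.length_append] at hp hp0
  rw [← List.append_assoc, Dc_append hy]
  by_cases hn : ∃ r1 r1' : List α × V, PLw D (om D) r1 (u ++ y1) ∧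
    PRw D (om D) r1' y2
  swap
  · exact DD_none fun r1 r2 h3 h4 => hn ⟨r1, r2, h3, h4⟩
  obtain ⟨r1, r1', h3, h4⟩ := hn
  by_cases hyb : y1.length < D.b
  · have h5 := thin H (h.mono (ω' := om D) (by omega) (by omega)) h3 hyb om_ge
    have := List.length_eq_zero_iff.2 h5.1
    omega
  · push Not at hyb
    rw [DD_eq H h3 h4]
    refine form_zero H h3 h4 hy ?_
    rw [lst_split (by omega) h3.1]
    refine Con.union ?_ ?_ hyb
    · have h5 := h3.2.1
      rwa [lst_split (by omega) h3.1] at h5
    · refine h'.2.1.sub ?_
      refine List.IsPrefix.isInfix ?_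
      have h6 : y1 ++ y2 <+: z.take (2 * om D) := by
        refine List.prefix_take_iff.2 ⟨hpz, ?_⟩
        rw [List.length_append]; omega
      exact h6

theorem nL_right (hab : D.a ≤ D.b) {q y z : List α} (hy : D.b ≤ y.length) :
    nL D q (y ++ z) = nL D q y := by
  unfold nL
  refine TS_congr M fun p x hpx _ => ?_
  by_cases hx : x.length < D.b
  · rw [if_pos hx, if_pos hx, ← List.append_assoc, cr_right hab (by
      rw [List.length_append]; omega)]
  · rw [if_neg hx, if_neg hx]

theorem nR_right (hab : D.a ≤ D.b) {q y z : List α} (hy : 2 * D.b ≤ y.length) :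
    nR D q (y ++ z) = act M z (nR D q y) := by
  unfold nR
  refine TJ_short M (b := D.b) (by omega) (fun p x hp => if_neg (by omega)) ?_
  intro p x hpx hp
  have := congrArg List.length hpx
  rw [List.length_append] at this
  rw [if_pos hp, if_pos hp, cr_right hab (by omega)]

theorem rp_right (hab : D.a ≤ D.b) {s y z : List α} (hy : 2 * D.b ≤ y.length) :
    rp D s (y ++ z) = act M z (rp D s y) := by
  unfold rp
  refine TJ_short M (b := D.b) (by omega) (fun p x hp => if_neg (by omega)) ?_
  intro p x hpx hp
  have := congrArg List.length hpx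
  rw [List.length_append] at this
  rw [if_pos hp, if_pos hp, Js_right (fun h1 h2 => (n_le _ h1 h2).trans (by omega))]

theorem cr_left_sum (hab : D.a ≤ D.b) (hb : 0 < D.b) (u z : List α) :
    TS M (fun p x => cr D p (x ++ z)) u = TJ M (cr D) u + nL D u z := by
  rw [TJ_eq, cr_short_right (by simpa using hb), add_zero, nL, ← TS_add]
  refine TS_congr M fun p x hpx _ => ?_
  by_cases hx : x.length < D.b
  · rw [if_pos hx, cr_short_right hx, zero_add]
  · rw [if_neg hx, add_zero, cr_right hab (by omega)]

theorem cr_right_sum (hab : D.a ≤ D.b) (u z : List α) :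
    TJ M (fun p x => cr D (u ++ p) x) z = TJ M (cr D) z + nR D u z := by
  rw [nR, ← TJ_add]
  refine TJ_congr M fun p x hpx => ?_
  by_cases hp : p.length < D.b
  · rw [if_pos hp, cr_short_left hp, zero_add]
  · rw [if_neg hp, add_zero, cr_left hab (by omega)]

theorem Dc_short {p : List α} (H : Hyp D)
    (hp : p.length < 2 * om D) : Dc D p = 0 := by
  by_cases h : om D ≤ p.length
  · obtain ⟨q, y, rfl, hy⟩ := exists_suffix_split h
    rw [Dc_append hy]
    refine DD_none fun r r' h1 _ => ?_
    have := h1.1
    rw [List.length_append] at hp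
    omega
  · exact if_neg h

theorem Dc_long {u p : List α} (H : Hyp D)
    (hp : 2 * om D ≤ p.length) : Dc D (u ++ p) = Dc D p := by
  obtain ⟨q, y, rfl, hy⟩ := exists_suffix_split (k := om D) (u := p) (by omega)
  rw [List.length_append] at hp
  rw [← List.append_assoc, Dc_append hy, Dc_append hy, DD_append H (by omega)]

/-- corrections around a junction -/
theorem Dc_sum (H : Hyp D) {r r' : List α × V} {u y z : List α}
    (h : PLw D (2 * om D) r u) (h' : PRw D (2 * om D) r' (y ++ z))
    (hy : y.length = om D) :
    TJ M (fun p _ => Dc D p) (u ++ (y ++ z)) =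
      act M (y ++ z) (TJ M (fun p _ => Dc D p) u) +
        TJ M (fun p _ => Dc D p) (y ++ z) + act M z (DD D u y) := by
  have hb : 0 < D.b := lt_of_lt_of_le H.ha H.hab
  have h2 := H.b2
  have e1 : TJ M (fun p _ => Dc D (u ++ p)) (y ++ z) =
      TJ M (fun p _ => (if p.length = 0 then Dc D u else 0) +
        (Dc D p + if p.length = om D then DD D u p else 0)) (y ++ z) := by
    refine TJ_congr M fun p x hpx => ?_
    have hpre : p <+: y ++ z := ⟨x, hpx⟩
    by_cases h0 : p.length = 0
    · have h1 := List.length_eq_zero_iff.1 h0
      subst h1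
      rw [List.append_nil, if_pos h0, if_neg (by rw [List.length_nil]; omega),
        Dc_short (p := []) H (by rw [List.length_nil]; omega), add_zero, add_zero]
    · rw [if_neg h0, zero_add]
      rcases Nat.lt_trichotomy p.length (om D) with h1 | h1 | h1
      · rw [sep_left H h (by omega) h1, if_neg (by omega), Dc_short H (by omega), add_zero]
      · rw [if_pos h1, Dc_append h1, Dc_short H (by omega), zero_add]
      · rw [if_neg (by omega), add_zero]
        by_cases h2 : p.length < 2 * om D
        · rw [sep_right H h h' hpre h1 h2, Dc_short H h2]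
        · exact Dc_long H (by omega)
  rw [TJ_append]
  have e2 : TJ M (fun p _ => Dc D p) u =
      TS M (fun p _ => Dc D p) u + Dc D u := TJ_eq M _ u
  rw [e1, TJ_add, TJ_add, TJ_single M (F := fun _ => Dc D u) (Nat.zero_le _),
    TJ_single M (F := fun p => DD D u p) (k := om D) (by
      rw [List.length_append]; omega), e2, act_add, List.drop_zero]
  rw [List.drop_append_of_le_length hy.ge, List.take_append_of_le_length hy.ge,
    List.drop_of_length_le hy.le, List.take_of_length_le hy.le, List.nil_append]
  abel

theorem junc (H : Hyp D) {r r' : List α × V} {u z : List α} {x : V}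
    (h : PLw D (2 * om D) r u) (h' : PRw D (2 * om D) r' z)
    (hx : EE D u x = lam D r u) :
    EE D (u ++ z) x = Psi D r' z := by
  have hab := H.hab
  have hb : 0 < D.b := lt_of_lt_of_le H.ha H.hab
  have h2 := H.b2
  obtain ⟨y, z, rfl, hy⟩ : ∃ y z', z = y ++ z' ∧ y.length = om D :=
    ⟨z.take (om D), z.drop (om D), (List.take_append_drop _ _).symm, by
      rw [List.length_take]; have := h'.1; omega⟩
  have h3 := h'.mono H (ω' := om D) (by omega) (by omega)
  rw [List.take_append_of_le_length hy.ge, List.take_of_length_le hy.le] at h3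
  have h4 := h.mono (ω' := om D) (by omega) (by omega)
  have e1 := Dc_sum H h h' hy
  have e2 := cr_left_sum (D := D) hab hb u (y ++ z)
  have e3 := cr_right_sum (D := D) hab u (y ++ z)
  unfold EE at hx ⊢
  rw [TJ_append M (cr D), e1, e2, e3, DD_eq H h4 h3, Psi, nL_right hab (by omega),
    nR_right hab (by omega), rp_right hab (by omega)]
  have e4 : act M u x = lam D r u - TJ M (cr D) u -
      TJ M (fun p _ => Dc D p) u := by
    rw [← hx]; abel
  rw [act_append M u, e4, form]
  simp only [act_append, act_add, act_sub]
  abel

end junc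

end Vale.Agent.P329.H672
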