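import Vale.Agent.P329.H672.Base

set_option linter.all false

/-!
Core jumps, locality.
-/

namespace Vale.Agent.P329.H672

open Vale.Agent.P329 Vale.Agent.P329.Slow Vale.Agent.P329.Mark

section lst

variable {α : Type}

/-- the last `k` letters -/
def lst (k : ℕ) (p : List α) : List α := p.drop (p.length - k)

theorem lst_suffix (k : ℕ) (p : List α) : lst k p <:+ p := List.drop_suffix _ _

theorem lst_length {k : ℕ} {p : List α} (h : k ≤ p.length) : (lst k p).length = k := by
  rw [lst, List.length_drop]; omega

theorem lst_append {k : ℕ} {u p : List α} (h : k ≤ p.length) : lst k (u ++ p) = lst k p := by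
  rw [lst, lst, List.length_append, List.drop_append, List.drop_of_length_le (by omega),
    List.nil_append]
  congr 1
  omega

theorem lst_eq {k : ℕ} {p w : List α} (h : w <:+ p) (hk : w.length = k) : lst k p = w := by
  obtain ⟨t, rfl⟩ := h
  rw [lst_append (by omega), lst, hk, Nat.sub_self, List.drop_zero]

/-- longer windows -/
theorem lst_lst {k l : ℕ} {p : List α} (hkl : k ≤ l) (hl : l ≤ p.length) :
    lst k (lst l p) = lst k p := by
  have h1 : lst k (lst l p) <:+ p := (lst_suffix k _).trans (lst_suffix l p)
  exact (lst_eq h1 (lst_length (by rw [lst_length hl]; exact hkl))).symm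

theorem lst_infix_of_le {k l : ℕ} {p : List α} (hkl : k ≤ l) (hl : l ≤ p.length) :
    lst k p <:+: lst l p := by
  rw [← lst_lst hkl hl]
  exact (lst_suffix k _).isInfix

theorem lst_split {k : ℕ} {q x : List α} (hx : x.length ≤ k) (hk : k ≤ (q ++ x).length) :
    lst k (q ++ x) = lst (k - x.length) q ++ x := by
  rw [List.length_append] at hk
  rw [lst, lst, List.length_append, List.drop_append_of_le_length (by omega)]
  congr 2
  omega

theorem Free.factor {N : ℕ} {s w : List α} (h : Free N w) (hs : s <:+: w) : Free N s :=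
  fun z hz hzs => h z hz (hzs.trans hs)

end lst

section defs

variable {α V : Type} [AddCommGroup V] {M : α → V →+ V}

/-- the base word of a zone -/
def mo (D : Dat M) (W : List α) : List α := md D.t D.a D.b W

open Classical in
/-- the jumps of the window system of `s` -/
noncomputable def Js (D : Dat M) (s p z : List α) : V :=
  if s.length = D.a ∧ Free D.N s then J (D.L s) (D.R s) (D.val s) p z else 0

open Classical in
/-- core jumps -/
noncomputable def cr (D : Dat M) (p x : List α) : V :=
  if D.b ≤ p.length ∧ D.b ≤ x.length ∧ Con D.t D.b (lst D.b p ++ x.take D.b) then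
    Js D (mo D (lst D.b p ++ x.take D.b)) p x else 0

variable {D : Dat M}

theorem mo_eq {g k : List α} (h : Con D.t D.b g) (hk : k <:+: g)
    (hb : D.b ≤ k.length) : mo D k = mo D g := md_eq h hk hb

theorem Js_good {s p z : List α} (hs : s.length = D.a) (hf : Free D.N s) :
    Js D s p z = J (D.L s) (D.R s) (D.val s) p z := if_pos ⟨hs, hf⟩

theorem Js_left {s u p z : List α} (hp : s.length = D.a → Free D.N s → D.n s ≤ p.length) :
    Js D s (u ++ p) z = Js D s p z := by
  by_cases h : s.length = D.a ∧ Free D.N s
  · have S := D.sys s h.1 h.2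
    rw [Js_good h.1 h.2, Js_good h.1 h.2]
    refine S.J_eq (fun i => ?_) (fun _ => Iff.rfl)
    exact ⟨fun h1 => suffix_of_le h1 (by rw [S.lenL]; exact hp h.1 h.2),
      fun h1 => h1.trans (List.suffix_append _ _)⟩
  · rw [Js, Js, if_neg h, if_neg h]

theorem Js_right {s p z y : List α} (hp : s.length = D.a → Free D.N s → D.n s ≤ z.length) :
    Js D s p (z ++ y) = Js D s p z := by
  by_cases h : s.length = D.a ∧ Free D.N s
  · have S := D.sys s h.1 h.2
    rw [Js_good h.1 h.2, Js_good h.1 h.2]
    refine S.J_eq (fun _ => Iff.rfl) (fun i => ?_)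
    exact ⟨fun h1 => prefix_of_le h1 (by rw [S.lenR]; exact hp h.1 h.2),
      fun h1 => h1.trans (List.prefix_append _ _)⟩
  · rw [Js, Js, if_neg h, if_neg h]

theorem Js_short_left {s p z : List α} (hp : s.length = D.a → Free D.N s → p.length < D.n s) :
    Js D s p z = 0 := by
  by_cases h : s.length = D.a ∧ Free D.N s
  · have S := D.sys s h.1 h.2
    rw [Js_good h.1 h.2]
    refine J_none fun i j h1 _ => ?_
    have h2 := h1.length_le
    rw [S.lenL] at h2
    have := hp h.1 h.2
    omega
  · rw [Js, if_neg h]

theorem Js_short_right {s p z : List α} (hp : s.length = D.a → Free D.N s → z.length < D.n s) :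
    Js D s p z = 0 := by
  by_cases h : s.length = D.a ∧ Free D.N s
  · have S := D.sys s h.1 h.2
    rw [Js_good h.1 h.2]
    refine J_none fun i j _ h1 => ?_
    have h2 := h1.length_le
    rw [S.lenR] at h2
    have := hp h.1 h.2
    omega
  · rw [Js, if_neg h]

theorem Js_nil_left (s z : List α) : Js D s [] z = 0 :=
  Js_short_left fun h1 h2 => (D.sys s h1 h2).pos

theorem Js_nil_right (s p : List α) : Js D s p [] = 0 :=
  Js_short_right fun h1 h2 => (D.sys s h1 h2).pos

theorem n_le (s : List α) (hs : s.length = D.a) (hf : Free D.N s) : D.n s ≤ D.a := by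
  have := D.len s hs hf
  omega

theorem cr_short_left {p x : List α} (h : p.length < D.b) : cr D p x = 0 :=
  if_neg fun h1 => by omega

theorem cr_short_right {p x : List α} (h : x.length < D.b) : cr D p x = 0 :=
  if_neg fun h1 => by omega

theorem cr_left {u p x : List α} (hab : D.a ≤ D.b) (h : D.b ≤ p.length) :
    cr D (u ++ p) x = cr D p x := by
  unfold cr
  rw [lst_append h, Js_left (fun h1 h2 => (n_le _ h1 h2).trans (hab.trans h)),
    List.length_append]
  congr 1
  apply propext
  constructor
  · rintro ⟨-, h1⟩; exact ⟨h, h1⟩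
  · rintro ⟨-, h1⟩; exact ⟨by omega, h1⟩

theorem cr_right {p x y : List α} (hab : D.a ≤ D.b) (h : D.b ≤ x.length) :
    cr D p (x ++ y) = cr D p x := by
  unfold cr
  rw [List.take_append_of_le_length h,
    Js_right (fun h1 h2 => (n_le _ h1 h2).trans (hab.trans h)), List.length_append]
  congr 1
  apply propext
  constructor
  · rintro ⟨h0, -, h1⟩; exact ⟨h0, h, h1⟩
  · rintro ⟨h0, -, h1⟩; exact ⟨h0, by omega, h1⟩

/-- deep inside a zone -/
theorem cr_deep {p x Z : List α} (hZ : Con D.t D.b Z) (hp : D.b ≤ p.length)
    (hx : D.b ≤ x.length) (h : lst D.b p ++ x.take D.b <:+: Z) :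
    cr D p x = Js D (mo D Z) p x := by
  rw [cr, if_pos ⟨hp, hx, hZ.sub h⟩, mo_eq hZ h (by
    rw [List.length_append, lst_length hp]; omega)]

end defs

end Vale.Agent.P329.H672
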