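import Vale.Agent.P329.H672.Zone

set_option linter.all false

/-!
Regular languages on words with zones for two rules.
-/

namespace Vale.Agent.P329.H672

open Vale.Agent.P329 Vale.Agent.P329.Slow Vale.Agent.P329.Mark Vale.Agent.P329.Clock

section main

variable {α V : Type} [AddCommGroup V] [Fintype V] {M : α → V →+ V}

theorem cs (D : Dat M) (H : Hyp D) (hV : Fintype.card V ≤ D.a) {G : Set (List α)}
    (hG : ∀ g ∈ G, ZR D.a D.N D.b D.c D.a' D.b' D.t D.t' g) :
    CS (2 * om D) (EE D) (PLw D (2 * om D)) (PRw D (2 * om D)) (lam D) (Psi D) G := by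
  have hab := H.hab
  have hb : 0 < D.b := lt_of_lt_of_le H.ha H.hab
  have h2 := H.b2
  have h4 := om_ge (D := D)
  have h5 := om_ge' (D := D)
  constructor
  · omega
  · intro r u k h
    exact (PLw.app_iff h.1 (by omega) (by omega)).2 h
  · intro r u k h
    exact lam_append hab (by have := h.1; omega)
  · rintro r k z ⟨h1, h2, h3, h4, h5, h6⟩
    refine ⟨by rw [List.length_append]; omega, ?_, ?_, h4, h5, h6.trans (List.prefix_append _ _)⟩
    · rwa [List.take_append_of_le_length h1]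
    · rwa [List.take_append_of_le_length h1]
  · rintro r k z ⟨h1, h2, h3, h4, h5, h6⟩ hk
    rw [List.take_append_of_le_length hk] at h2 h3
    refine ⟨hk, h2, h3, h4, h5, prefix_of_le h6 ?_⟩
    rw [(D.sys _ h4 h5).lenR]
    have := n_le (D := D) _ h4 h5
    omega
  · intro r r' u z x h1 h2 h3
    exact junc H h1 h2 h3
  · intro g hg u x
    exact cut_in H hV (hG g hg) u x

end main

/-- evaluation of linear actions -/
theorem cls_zones (v N : ℕ) : ∃ C : ℕ, 0 < C ∧
    ∀ (α V : Type) [Finite α] [Fintype V] [AddCommGroup V] (P : Set (List α) → Prop), Cls P →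
    Fintype.card V = v → ∀ (M : α → V →+ V) (b c a' b' : ℕ) (τ τ' : List α → List α),
      C ≤ b → ∀ G : Set (List α), (∀ g ∈ G, ZR C N b c a' b' τ τ' g) →
      ∀ (m : ℕ) (x : V) (F : Set V),
        P {w : List α | Dom G m w ∧ act M w x ∈ F} := by
  obtain ⟨C, hC0, hCN, hC⟩ := dat_exists v N v
  refine ⟨C, hC0, ?_⟩
  intro α V _ _ _ P hP hv M b c a' b' τ τ' h1 G hG m x F
  obtain ⟨D, e1, e2, e3, e4, e5, e6, e7, e8⟩ := hC α V M b a' b' c τ τ' hv.le
  have H : Hyp D := ⟨by omega, by omega⟩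
  refine (cs D H (by omega) (G := G) (fun g hg => ?_)).cls_act hP M (fun w y => ?_) m x F
  · rw [e1, e2, e3, e4, e5, e6, e7, e8]
    exact hG g hg
  · unfold EE
    rw [act_zero]
    abel

/-- regular languages on words with zones -/
theorem regular_zones (n N : ℕ) : ∃ C : ℕ, 0 < C ∧ ∀ (α : Type) [Finite α]
    (P : Set (List α) → Prop), Cls P → ∀ (A : DFA α (Fin n)) (b c a' b' : ℕ)
      (τ τ' : List α → List α), C ≤ b → ∀ G : Set (List α), (∀ g ∈ G, ZR C N b c a' b' τ τ' g) →
      ∀ m : ℕ, P {w : List α | w ∈ A.accepts ∧ Dom G m w} := by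
  classical
  obtain ⟨C, hC0, hC⟩ := cls_zones (Fintype.card (Fin (Fintype.card (Fin n)) → ZMod 2)) N
  refine ⟨C, hC0, fun α _ P hP A b c a' b' τ τ' h1 G hG m => ?_⟩
  exact dfa_transfer (Q := {w | Dom G m w}) (P := P) A
    fun M x F => hC α _ P hP rfl M b c a' b' τ τ' h1 G hG m x F

end Vale.Agent.P329.H672
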