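import Vale.Agent.P329.H672.Cover

set_option linter.all false

/-!
Long markers chosen by a rule with short windows.
-/

namespace Vale.Agent.P329.H672

open Vale.Agent.P329 Vale.Agent.P329.Slow Vale.Agent.P329.Mark

variable {α : Type}

/-- a short word at many places of a long word -/
theorem places [Fintype α] (C b c : ℕ) {X : List α}
    (hX : c + b + 3 * b * (C * Fintype.card (List.Vector α C) + 1) + C ≤ X.length) :
    ∃ (s : List α) (p : Fin C → ℕ), s.length = C ∧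
      (∀ i, c + b ≤ p i ∧ p i ≤ c + (b + 3 * b * (C * Fintype.card (List.Vector α C) + 1)) ∧
        s <+: X.drop (p i)) ∧ ∀ i j, i < j → p i + 3 * b ≤ p j := by
  classical
  obtain ⟨K, hK⟩ : ∃ K, K = C * Fintype.card (List.Vector α C) + 1 := ⟨_, rfl⟩
  rw [← hK] at hX
  have hlt : ∀ k : Fin K, 3 * b * (k : ℕ) + 3 * b ≤ 3 * b * K := by
    intro k
    have := Nat.mul_le_mul_left (3 * b) (show (k : ℕ) + 1 ≤ K from k.2)
    rw [Nat.mul_add] at this
    omega
  have hf : ∀ k : Fin K, ((X.drop (c + b + 3 * b * k)).take C).length = C := by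
    intro k
    have := hlt k
    rw [List.length_take, List.length_drop]
    omega
  let f : Fin K → List.Vector α C := fun k => ⟨(X.drop (c + b + 3 * b * k)).take C, hf k⟩
  obtain ⟨y, -, hy⟩ := Finset.exists_lt_card_fiber_of_mul_lt_card_of_maps_to
    (s := (Finset.univ : Finset (Fin K))) (t := (Finset.univ : Finset (List.Vector α C)))
    (f := f) (n := C) (fun _ _ => Finset.mem_univ _) (by
      rw [Finset.card_univ, Finset.card_univ, Fintype.card_fin, hK, Nat.mul_comm]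
      omega)
  refine ⟨y.1, fun i => c + b + 3 * b * (Finset.orderEmbOfCardLe _ hy.le i : Fin K), y.2, ?_, ?_⟩
  · intro i
    have h1 := Finset.orderEmbOfCardLe_mem _ hy.le i
    rw [Finset.mem_filter] at h1
    have h2 := hlt (Finset.orderEmbOfCardLe _ hy.le i)
    refine ⟨Nat.le_add_right _ _, by rw [← hK]; show c + b + 3 * b *
      ((Finset.orderEmbOfCardLe _ hy.le i : Fin K) : ℕ) ≤ _; omega, ?_⟩
    have h3 : y.1 = (X.drop (c + b + 3 * b * (Finset.orderEmbOfCardLe _ hy.le i : Fin K))).take C :=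
      (congrArg Subtype.val h1.2).symm
    rw [h3]
    exact List.take_prefix _ _
  · intro i j hij
    have h1 : Finset.orderEmbOfCardLe _ hy.le i < Finset.orderEmbOfCardLe _ hy.le j :=
      (Finset.orderEmbOfCardLe _ hy.le).lt_iff_lt.2 hij
    have h2 := Nat.mul_le_mul_left (3 * b) (Nat.succ_le_of_lt (Fin.lt_def.1 h1))
    rw [Nat.succ_eq_add_one, Nat.mul_add] at h2
    show c + b + 3 * b * ((Finset.orderEmbOfCardLe _ hy.le i : Fin K) : ℕ) + 3 * b ≤
      c + b + 3 * b * ((Finset.orderEmbOfCardLe _ hy.le j : Fin K) : ℕ)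
    omega

/-- zones for long markers chosen by a rule with short windows -/
def ZL (K N b : ℕ) (τ : List α → List α) (g : List α) : Prop :=
  ∃ P X Q : List α, g = P ++ X ++ Q ∧ X.length = K * b ∧ Free N X ∧ 10 * (K * b) ≤ P.length ∧
    10 * (K * b) ≤ Q.length ∧ ∀ f : List α, f <:+: g → f.length = b → τ f = X

theorem ZR_of_ZL [Fintype α] (C N : ℕ) (hC : 0 < C) : ∃ K : ℕ, 0 < K ∧ ∀ b : ℕ, 0 < b →
    ∀ τ : List α → List α, ∃ (b₁ c a' b' : ℕ) (τ₁ τ₂ : List α → List α), C ≤ b₁ ∧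
      ∀ g, ZL K N b τ g → ZR C N b₁ c a' b' τ₁ τ₂ g := by
  classical
  obtain ⟨k, hk⟩ : ∃ k, k = C * Fintype.card (List.Vector α C) + 1 := ⟨_, rfl⟩
  obtain ⟨T, hT⟩ : ∃ T, T = (N + 2) * (3 * k + 3) + 1 := ⟨_, rfl⟩
  refine ⟨T * (C + 1), by rw [hT]; positivity, fun b hb τ => ?_⟩
  obtain ⟨b₁, hb₁⟩ : ∃ b₁, b₁ = C + b := ⟨_, rfl⟩
  obtain ⟨D, hD⟩ : ∃ D, D = b₁ + 3 * b₁ * k + 2 * b₁ := ⟨_, rfl⟩
  obtain ⟨c, hc⟩ : ∃ c, c = (N + 1) * D := ⟨_, rfl⟩
  have hCb : C ≤ C * b := Nat.le_mul_of_pos_right C hb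
  have hT2 : T * (C + 1) * b = T * (C * b + b) := by ring
  have hT3 : T * (C + b) ≤ T * (C * b + b) := Nat.mul_le_mul_left _ (by omega)
  have hD2 : D = (3 * k + 3) * b₁ := by rw [hD]; ring
  have hT4 : T * (C + b) = c + D + b₁ := by
    rw [hc, hD2, hT, hb₁]; ring
  have hlen : c + b₁ + 3 * b₁ * k + C ≤ T * (C + 1) * b := by omega
  have hs : ∀ X : List α, ∃ s : List α, c + b₁ + 3 * b₁ * k + C ≤ X.length →
      ∃ p : Fin C → ℕ, s.length = C ∧
      (∀ i, c + b₁ ≤ p i ∧ p i ≤ c + (b₁ + 3 * b₁ * k) ∧ s <+: X.drop (p i)) ∧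
        ∀ i j, i < j → p i + 3 * b₁ ≤ p j := by
    intro X
    by_cases h : c + b₁ + 3 * b₁ * k + C ≤ X.length
    · rw [hk] at h
      obtain ⟨s, p, h1⟩ := places C b₁ c h
      rw [← hk] at h1
      exact ⟨s, fun _ => ⟨p, h1⟩⟩
    · exact ⟨[], fun h2 => absurd h2 h⟩
  choose sg hsg using hs
  refine ⟨b₁, c, T * (C + 1) * b, b, fun f => sg (τ (f.take b)), τ, by omega, ?_⟩
  rintro g ⟨P, X, Q, hg, hX, hf, hP, hQ, hτ⟩
  obtain ⟨p, hp1, hp2, hp3⟩ := hsg X (by omega)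
  have hb1 : b₁ ≤ 3 * b₁ * k := by
    have : 1 ≤ 3 * k := by omega
    calc b₁ = b₁ * 1 := (Nat.mul_one _).symm
      _ ≤ b₁ * (3 * k) := Nat.mul_le_mul_left _ this
      _ = 3 * b₁ * k := by ring
  refine ⟨P.take (P.length - (b₁ + b)), P.drop (P.length - (b₁ + b)), X, Q, sg X,
    b₁ + 3 * b₁ * k, p, ?_, ?_, ?_, hX, ?_, hp1, ?_, ?_, hp2, hp3, ?_, ?_⟩
  · rw [List.take_append_drop, hg]
  · rw [List.length_take]; omega
  · rw [List.length_drop]; omega
  · omega
  · obtain ⟨-, -, h3⟩ := hp2 ⟨0, hC⟩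
    exact Free.factor hf (h3.isInfix.trans (List.drop_suffix _ _).isInfix)
  · intro f hf1 hf2
    show sg (τ (f.take b)) = sg X
    rw [hτ (f.take b) ((List.take_prefix _ _).isInfix.trans hf1) (by
      rw [List.length_take]; omega)]
  · have h4 : NP D (X.take c) := NP_of_free hf hc.ge (by omega)
    rw [hD] at h4
    exact h4
  · intro t f _ hf1 hf2
    refine hτ f (hf1.isInfix.trans ?_) hf2
    refine ⟨P.take (P.length - (b₁ + b)), X.drop t ++ Q, ?_⟩
    rw [hg]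
    simp only [List.append_assoc]
    rw [← List.append_assoc (X.take t), List.take_append_drop, ← List.append_assoc,
      List.take_append_drop]

end Vale.Agent.P329.H672
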