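import Vale.Agent.P329.H672.Local

set_option linter.all false

/-!
Cut places inside the fine words.
-/

namespace Vale.Agent.P329.H672

open Vale.Agent.P329 Vale.Agent.P329.Slow Vale.Agent.P329.Mark

section names

variable {α V : Type} [AddCommGroup V] [Fintype V] {M : α → V →+ V}

/-- parameters -/
structure Hyp (D : Dat M) : Prop where
  ha : 0 < D.a
  hab : D.a ≤ D.b

/-- number of a value -/
noncomputable def idx (y : V) : ℕ := (Fintype.equivFin V y : ℕ)

theorem idx_lt (y : V) : idx y < Fintype.card V := (Fintype.equivFin V y).isLt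

theorem idx_inj {y y' : V} (h : idx y = idx y') : y = y' :=
  (Fintype.equivFin V).injective (Fin.ext h)

/-- places of the base word in a fine word -/
def PS (D : Dat M) (X : List α) (p : V → ℕ) : Prop :=
  (∀ y y', y ≠ y' → p y + 3 * D.b ≤ p y' ∨ p y' + 3 * D.b ≤ p y) ∧
    (∀ y, D.c + D.b ≤ p y ∧ mo D X <+: X.drop (p y)) ∧
    ∃ e, (∀ y, p y ≤ D.c + e) ∧
      ∀ d, 0 < d → d ≤ e + 2 * D.b → ¬ (X.take D.c).drop d <+: X.take D.c

open Classical in
/-- an occurrence of the base word for `y` -/
noncomputable def occ (D : Dat M) (X : List α) (y : V) : ℕ :=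
  if h : ∃ p : V → ℕ, PS D X p then h.choose y else 0

/-- the value at the end of the second window of the marker -/
noncomputable def ev (D : Dat M) (X : List α) (y : V) : V :=
  act M ((X.take (occ D X y + 2 * D.n (mo D X))).drop (2 * D.a)) y +
    Th M (D.L (mo D X)) (D.R (mo D X)) (D.val (mo D X)) (X.take (occ D X y + 2 * D.n (mo D X)))

open Classical in
/-- the name of the cut and its place in the marker -/
noncomputable def nt (D : Dat M) (X : List α) (y : V) : (Unit × V) × ℕ :=
  if h : (mo D X).length = D.a ∧ Free D.N (mo D X) then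
    let h1 := (D.mkk _ h.1 h.2).cutp () (ev D X y)
    (h1.choose, h1.choose_spec.choose) else (((), 0), 0)

/-- the cut place -/
noncomputable def rr (D : Dat M) (X : List α) (y : V) : ℕ := occ D X y + (nt D X y).2

theorem nt_spec (D : Dat M) {X : List α} (y : V)
    (h : (mo D X).length = D.a ∧ Free D.N (mo D X)) :
    2 * D.n (mo D X) ≤ (nt D X y).2 ∧
    (nt D X y).2 + D.n (mo D X) ≤ (D.mw (mo D X)).length ∧
    D.L (mo D X) (nt D X y).1 <:+ (D.mw (mo D X)).take (nt D X y).2 ∧
    D.R (mo D X) (nt D X y).1 <+: (D.mw (mo D X)).drop (nt D X y).2 ∧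
    D.val (mo D X) (nt D X y).1 =
      act M (((D.mw (mo D X)).take (nt D X y).2).drop (2 * D.n (mo D X))) (ev D X y) := by
  unfold nt
  rw [dif_pos h]
  exact ((D.mkk _ h.1 h.2).cutp () (ev D X y)).choose_spec.choose_spec

/-- fine words -/
structure XG (D : Dat M) (X : List α) : Prop where
  len : X.length = D.a'
  con : Con D.t D.b X
  mlen : (mo D X).length = D.a
  mfree : Free D.N (mo D X)
  ps : ∃ p : V → ℕ, PS D X p

variable {D : Dat M}

theorem XG.good {X : List α} (hX : XG D X) :
    (mo D X).length = D.a ∧ Free D.N (mo D X) := ⟨hX.mlen, hX.mfree⟩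

theorem XG.pso {X : List α} (hX : XG D X) : PS D X (occ D X) := by
  have h1 : occ D X = hX.ps.choose := by
    funext y
    rw [occ, dif_pos hX.ps]
  rw [h1]
  exact hX.ps.choose_spec

theorem no_per {c m : ℕ} {X : List α}
    (h : ∀ d, 0 < d → d ≤ m → ¬ (X.take c).drop d <+: X.take c) (hm : 0 < m) : m < c := by
  by_contra hc
  push Not at hc
  by_cases h0 : c = 0
  · subst h0
    exact h 1 (by omega) (by omega) (by simp)
  · refine h c (by omega) hc ?_
    rw [List.drop_of_length_le (by rw [List.length_take]; omega)]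
    exact List.nil_prefix

theorem XG.occ_le (H : Hyp D) {X : List α} (hX : XG D X) (y : V) :
    3 * D.b ≤ occ D X y ∧ (0 < D.a → occ D X y + D.a ≤ D.a') := by
  have h1 := hX.pso.2.1 y
  obtain ⟨e, h2, h3⟩ := hX.pso.2.2
  have h4 := h2 y
  have h5 := H.ha
  have h6 := H.hab
  have h7 := no_per h3 (by omega)
  refine ⟨by omega, fun ha => ?_⟩
  have h2 := h1.2.length_le
  rw [hX.mlen, List.length_drop, hX.len] at h2
  omega

theorem XG.rr_spec (H : Hyp D) {X : List α} (hX : XG D X) (y : V) :
    occ D X y ≤ rr D X y ∧ rr D X y ≤ occ D X y + D.b ∧ rr D X y ≤ D.a' := by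
  have h1 := hX.occ_le H y
  have h2 := nt_spec D y hX.good
  have h3 := (D.mkp _ hX.good.1 hX.good.2).length_le
  rw [hX.good.1] at h3
  have h4 := h1.2 H.ha
  have h5 := H.hab
  unfold rr
  omega

/-- the marker at the occurrence of the base word -/
theorem XG.marker {X : List α} (hX : XG D X) (y : V) {t : ℕ}
    (ht : t ≤ (D.mw (mo D X)).length) :
    X.take (occ D X y + t) = X.take (occ D X y) ++ (D.mw (mo D X)).take t := by
  have h1 := (D.mkp _ hX.good.1 hX.good.2).trans (hX.pso.2.1 y).2
  rw [List.take_add]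
  congr 1
  obtain ⟨q, hq⟩ := h1
  rw [← hq, List.take_append_of_le_length ht]

theorem XG.marker_drop {X : List α} (hX : XG D X) (y : V) {t : ℕ}
    (ht : t ≤ (D.mw (mo D X)).length) :
    (D.mw (mo D X)).drop t <+: X.drop (occ D X y + t) := by
  obtain ⟨q, hq⟩ := (D.mkp _ hX.good.1 hX.good.2).trans (hX.pso.2.1 y).2
  rw [← List.drop_drop, ← hq, List.drop_append_of_le_length ht]
  exact List.prefix_append _ _

theorem XG.L_suffix {X : List α} (hX : XG D X) (y : V) :
    D.L (mo D X) (nt D X y).1 <:+ X.take (rr D X y) := by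
  have h2 := nt_spec D y hX.good
  rw [rr, hX.marker y (by omega)]
  exact h2.2.2.1.trans (List.suffix_append _ _)

theorem XG.R_prefix {X : List α} (hX : XG D X) (y : V) :
    D.R (mo D X) (nt D X y).1 <+: X.drop (rr D X y) := by
  have h2 := nt_spec D y hX.good
  exact h2.2.2.2.1.trans (hX.marker_drop y (by omega))

/-- the value at the cut place -/
theorem XG.value (H : Hyp D) {X : List α} (hX : XG D X) (y : V) :
    act M ((X.take (rr D X y)).drop (2 * D.a)) y +
      Th M (D.L (mo D X)) (D.R (mo D X)) (D.val (mo D X)) (X.take (rr D X y)) =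
      D.val (mo D X) (nt D X y).1 := by
  have h1 := hX.occ_le H y
  obtain ⟨h2, h2', -, -, h5⟩ := nt_spec D y hX.good
  have S := D.sys _ hX.good.1 hX.good.2
  have K := D.mkk _ hX.good.1 hX.good.2
  have h3 := H.hab
  have e1 := K.prop S (X.take (occ D X y)) () (t := (nt D X y).2) h2 (by omega) 0
  have e2 : ∀ w : List α, E M (D.L (mo D X)) (D.R (mo D X)) (D.val (mo D X)) w 0 =
      Th M (D.L (mo D X)) (D.R (mo D X)) (D.val (mo D X)) w := by
    intro w
    rw [E, act_zero, zero_add]
  rw [e2, e2, ← hX.marker y (by omega), ← hX.marker y (by omega)] at e1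
  have e6 : X.take (rr D X y) = X.take (occ D X y + 2 * D.n (mo D X)) ++
      ((D.mw (mo D X)).take (nt D X y).2).drop (2 * D.n (mo D X)) := by
    rw [rr, hX.marker y (by omega), hX.marker y (by omega), List.append_assoc]
    congr 1
    conv_lhs => rw [← List.take_append_drop (2 * D.n (mo D X))
      ((D.mw (mo D X)).take (nt D X y).2)]
    rw [List.take_take, min_eq_left h2]
  have hlen : 2 * D.a ≤ (X.take (occ D X y + 2 * D.n (mo D X))).length := by
    have h6 := hX.len
    have h7 := h1.2 H.ha
    have h8 := D.len _ hX.good.1 hX.good.2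
    rw [List.length_take]
    omega
  have e7 : Th M (D.L (mo D X)) (D.R (mo D X)) (D.val (mo D X)) (X.take (rr D X y)) =
      act M (((D.mw (mo D X)).take (nt D X y).2).drop (2 * D.n (mo D X)))
        (Th M (D.L (mo D X)) (D.R (mo D X)) (D.val (mo D X))
          (X.take (occ D X y + 2 * D.n (mo D X)))) := e1
  rw [e7, h5, e6, List.drop_append_of_le_length hlen, act_append, ← act_add, ev]

end names

end Vale.Agent.P329.H672
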