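import Vale.Agent.P329.H672.Main

set_option linter.all false

/-!
Periods.
-/

namespace Vale.Agent.P329.H672

open Vale.Agent.P329 Vale.Agent.P329.Slow Vale.Agent.P329.Mark

variable {α : Type}

theorem per_iff {d : ℕ} {Y : List α} :
    Y.drop d <+: Y ↔ ∀ i, i + d < Y.length → Y[i + d]? = Y[i]? := by
  constructor
  · rintro ⟨t, ht⟩ i hi
    have h1 : (Y.drop d ++ t)[i]? = Y[i]? := by rw [ht]
    rw [List.getElem?_append_left (by rw [List.length_drop]; omega), List.getElem?_drop] at h1
    rw [← h1, Nat.add_comm]
  · intro h
    by_cases hd : d ≤ Y.length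
    · have h1 : Y.drop d = Y.take (Y.length - d) := by
        apply List.ext_getElem?
        intro i
        rw [List.getElem?_drop, List.getElem?_take]
        by_cases hi : i < Y.length - d
        · rw [if_pos hi, ← h i (by omega), Nat.add_comm]
        · rw [if_neg hi, List.getElem?_eq_none (by omega)]
      rw [h1]
      exact List.take_prefix _ _
    · rw [List.drop_of_length_le (by omega)]
      exact List.nil_prefix

/-- no period of length at most `D` -/
def NP (D : ℕ) (Y : List α) : Prop := ∀ d, 0 < d → d ≤ D → ¬ Y.drop d <+: Y

theorem NP_of_free {N D c : ℕ} {X : List α} (h : Free N X) (hc : (N + 1) * D ≤ c)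
    (hX : c ≤ X.length) : NP D (X.take c) := by
  intro d hd hdD hper
  rw [per_iff] at hper
  have h1 : N * d ≤ N * D := Nat.mul_le_mul_left _ hdD
  have h2 : (N + 1) * D = N * D + D := by ring
  obtain ⟨z, hz, -, hz2⟩ := pow_of_period (s := X) (p := 0) (d := d) (len := c - d) (N := N)
    hd (by omega) (by omega) (by omega) (by
      intro i hi
      have h3 := hper i (by rw [List.length_take]; omega)
      rw [List.getElem?_take, if_pos (by omega), List.getElem?_take, if_pos (by omega)] at h3
      show X[0 + i]? = X[0 + d + i]?
      rw [Nat.zero_add, Nat.zero_add, ← h3, Nat.add_comm])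
  refine h z hz ?_
  rw [hz2]
  exact (List.take_prefix _ _).isInfix.trans (List.drop_suffix _ _).isInfix

/-- a word without small periods has a short factor without small periods -/
theorem NP_factor {D c : ℕ} {g : List α} (h : NP D g) (hc : 2 * D + 1 ≤ c) (hg : c ≤ g.length) :
    ∃ Y : List α, Y <:+: g ∧ Y.length = c ∧ NP D Y := by
  by_contra hcon
  push Not at hcon
  have h1 : ∀ k, k + c ≤ g.length → ∃ d, 0 < d ∧ d ≤ D ∧
      ∀ i, k ≤ i → i + d < k + c → g[i + d]? = g[i]? := by
    intro k hk
    have h2 := hcon ((g.drop k).take c)
      ((List.take_prefix _ _).isInfix.trans (List.drop_suffix _ _).isInfix)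
      (by rw [List.length_take, List.length_drop]; omega)
    unfold NP at h2
    push Not at h2
    obtain ⟨d, hd, hdD, hper⟩ := h2
    refine ⟨d, hd, hdD, fun i hki hi => ?_⟩
    rw [per_iff] at hper
    have h3 := hper (i - k) (by rw [List.length_take, List.length_drop]; omega)
    rw [List.getElem?_take, if_pos (by omega), List.getElem?_take, if_pos (by omega),
      List.getElem?_drop, List.getElem?_drop] at h3
    have e1 : k + (i - k + d) = i + d := by omega
    have e2 : k + (i - k) = i := by omega
    rw [e1, e2] at h3
    exact h3
  obtain ⟨d, hd, hdD, h2⟩ := h1 0 (by omega)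
  refine h d hd hdD (per_iff.2 ?_)
  intro i
  induction i using Nat.strong_induction_on with
  | _ i ih =>
    intro hi
    by_cases hic : i + d < c
    · exact h2 i (Nat.zero_le _) (by omega)
    · obtain ⟨d', hd', hdD', h3⟩ := h1 (i + d + 1 - c) (by omega)
      have h4 := h3 (i + d - d') (by omega) (by omega)
      have h5 := h3 (i - d') (by omega) (by omega)
      have h6 := ih (i - d') (by omega) (by omega)
      have e1 : i + d - d' + d' = i + d := by omega
      have e2 : i - d' + d' = i := by omega
      have e3 : i - d' + d = i + d - d' := by omega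
      rw [e1] at h4
      rw [e2] at h5
      rw [e3] at h6
      rw [h4, h6, h5]

end Vale.Agent.P329.H672
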