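import Vale.Agent.P329.H672.C2.P
import Vale.Agent.P329.H487.C2H

/-! Pair counts with the distance modulo an odd number, from pair counts of blocks. -/

set_option linter.all false

namespace Vale.Agent.P329.H672.Q2

open Vale.Agent.P329 Vale.Agent.P329.H559 Vale.Agent.P329.H559.C2 Vale.Agent.P329.H672.C2

variable {α : Type} {q : ℕ}

/-- constant blocks -/
def Cst (B : Blk α q) : Prop := ∃ x, ∀ i, i < q → B.1[i]? = some x

/-- pairs of alternating blocks -/
def Exc (B C : Blk α q) : Prop := ∃ x y, ∀ i, i < q →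
  B.1[i]? = some (if i % 2 = 0 then x else y) ∧ C.1[i]? = some (if i % 2 = 0 then y else x)

open Classical in
/-- number of letters `a` at distance `g` from the end -/
noncomputable def cg (q : ℕ) (a : α) : ZMod q → List α → ℤ
  | _, [] => 0
  | g, x :: X => cg q a (g - 1) X + if x = a ∧ g = 1 then 1 else 0

open Classical in
/-- number of pairs of a letter `a` and a later letter `b` at distance `g` -/
noncomputable def pg (q : ℕ) (g : ZMod q) (a b : α) : List α → ℤ
  | [] => 0
  | x :: X => pg q g a b X + if x = b then cg q a g X else 0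

open Classical in
/-- the letter `a` at the clock `c` -/
noncomputable def tc (q : ℕ) (a : α) (c : ZMod q) (X : List α) (x : α) : ℤ :=
  if (X.length : ZMod q) = c ∧ x = a then 1 else 0

/-- number of letters `a` at the clock `c` -/
noncomputable def uc (q : ℕ) (a : α) (c : ZMod q) (X : List α) : ℤ := SS (tc q a c) X

theorem uc_cons (a : α) (c : ZMod q) (x : α) (X : List α) :
    uc q a c (x :: X) = uc q a c X + tc q a c X x := rfl

theorem cg_eq (a : α) (X : List α) : ∀ g : ZMod q, cg q a g X = uc q a ((X.length : ZMod q) - g) X := by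
  classical
  induction X with
  | nil => intro g; rfl
  | cons x X ih =>
    intro g
    rw [cg, ih, uc_cons, tc, List.length_cons]
    have h1 : (X.length : ZMod q) - (g - 1) = ((X.length + 1 : ℕ) : ZMod q) - g := by
      push_cast; ring
    have h2 : (x = a ∧ g = 1) ↔ ((X.length : ZMod q) = ((X.length + 1 : ℕ) : ZMod q) - g ∧
        x = a) := by
      constructor
      · rintro ⟨h, h'⟩
        refine ⟨?_, h⟩
        rw [h']; push_cast; ring
      · rintro ⟨h, h'⟩
        refine ⟨h', ?_⟩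
        push_cast at h
        linear_combination h
    rw [h1, if_congr h2 rfl rfl]

/-- integral pair sums -/
def PZ (f g : List α → α → ℤ) : List α → ℤ
  | [] => 0
  | b :: X => PZ f g X + g X b * SS f X

theorem PZ_cast {m : ℕ} (f g : List α → α → ℤ) (X : List α) :
    ((PZ f g X : ℤ) : ZMod m) = PP (fun X b => ((f X b : ℤ) : ZMod m))
      (fun X b => ((g X b : ℤ) : ZMod m)) X := by
  induction X with
  | nil => exact Int.cast_zero
  | cons b X ih => rw [PZ, PP, ← ih, ← SS_cast]; push_cast; ring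

theorem pg_eq [NeZero q] (g : ZMod q) (a b : α) (X : List α) :
    pg q g a b X = ∑ c : ZMod q, PZ (tc q a c) (tc q b (c + g)) X := by
  classical
  induction X with
  | nil => exact (Finset.sum_eq_zero fun _ _ => rfl).symm
  | cons x X ih =>
    have h1 : (if x = b then cg q a g X else 0) =
        ∑ c : ZMod q, tc q b (c + g) X x * SS (tc q a c) X := by
      rw [Finset.sum_eq_single ((X.length : ZMod q) - g)]
      · rw [tc, sub_add_cancel, cg_eq]
        by_cases h : x = b
        · rw [if_pos h, if_pos ⟨rfl, h⟩, one_mul]; rfl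
        · rw [if_neg h, if_neg (fun h' => h h'.2), zero_mul]
      · intro c _ hc
        rw [tc, if_neg, zero_mul]
        rintro ⟨h, -⟩
        exact hc (by rw [h, add_sub_cancel_right])
      · intro h; exact absurd (Finset.mem_univ _) h
    rw [pg, ih, h1, ← Finset.sum_add_distrib]
    rfl

theorem pz_total [NeZero q] (a b : α) (X : List α) :
    ∑ c : ZMod q, ∑ d : ZMod q, PZ (tc q a c) (tc q b d) X = pc a b X.reverse := by
  classical
  have hs : ∀ (a : α) (X : List α) (x : α), ∑ c : ZMod q, tc q a c X x = if x = a then 1 else 0 := by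
    intro a X x
    rw [Finset.sum_eq_single (X.length : ZMod q)]
    · rw [tc]
      by_cases h : x = a
      · rw [if_pos ⟨rfl, h⟩, if_pos h]
      · rw [if_neg (fun h' => h h'.2), if_neg h]
    · intro c _ hc
      rw [tc, if_neg]
      rintro ⟨h, -⟩
      exact hc h.symm
    · intro h; exact absurd (Finset.mem_univ _) h
  have hS : ∀ X : List α, ∑ c : ZMod q, SS (tc q a c) X = ct a X.reverse := by
    intro X
    induction X with
    | nil => exact Finset.sum_eq_zero fun _ _ => rfl
    | cons x X ih =>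
      rw [List.reverse_cons, H487.ct_snoc, ← ih, ← hs a X x, ← Finset.sum_add_distrib]
      rfl
  induction X with
  | nil => exact Finset.sum_eq_zero fun _ _ => Finset.sum_eq_zero fun _ _ => rfl
  | cons x X ih =>
    rw [List.reverse_cons, H487.pc_snoc, ← ih, ← hS X]
    have h1 : (if x = b then ∑ c : ZMod q, SS (tc q a c) X else 0) =
        ∑ c : ZMod q, ∑ d : ZMod q, tc q b d X x * SS (tc q a c) X := by
      rw [← one_mul (∑ c : ZMod q, SS (tc q a c) X)]
      have h2 : ∀ c : ZMod q, ∑ d : ZMod q, tc q b d X x * SS (tc q a c) X =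
          (if x = b then 1 else 0) * SS (tc q a c) X := fun c => by
        rw [← Finset.sum_mul, hs]
      rw [Finset.sum_congr rfl fun c _ => h2 c, ← Finset.mul_sum]
      by_cases h : x = b
      · rw [if_pos h, if_pos h]
      · rw [if_neg h, if_neg h, zero_mul]
    rw [h1, ← Finset.sum_add_distrib]
    refine Finset.sum_congr rfl fun c _ => ?_
    rw [← Finset.sum_add_distrib]
    rfl

open Classical in
/-- the number at clock `c` of a block -/
theorem uc_blk [NeZero q] (a : α) (X : List α) (hX : X.length ≤ q) (c : ℕ) (hc : c < q) :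
    uc q a (c : ZMod q) X = if X.reverse[c]? = some a then 1 else 0 := by
  classical
  induction X with
  | nil =>
    rw [List.reverse_nil, List.getElem?_nil, if_neg (by exact fun h => by cases h)]; rfl
  | cons x X ih =>
    rw [List.length_cons] at hX
    have h1 : ((X.length : ZMod q) = (c : ZMod q)) ↔ X.length = c := by
      constructor
      · intro h
        have h2 := (ZMod.natCast_eq_natCast_iff _ _ _).1 h
        exact Nat.ModEq.eq_of_lt_of_lt h2 (by omega) hc
      · rintro rfl; rfl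
    rw [uc_cons, ih (by omega), tc, List.reverse_cons]
    rcases Nat.lt_trichotomy c X.length with h | h | h
    · rw [List.getElem?_append_left (by rw [List.length_reverse]; exact h),
        if_neg (c := (X.length : ZMod q) = (c : ZMod q) ∧ x = a)
          (fun h' => by have := h1.1 h'.1; omega), add_zero]
    · rw [if_neg (c := X.reverse[c]? = some a) (by
          rw [List.getElem?_eq_none (by rw [List.length_reverse]; omega)]
          exact fun h => by cases h), zero_add,
        List.getElem?_append_right (by rw [List.length_reverse]; omega), List.length_reverse,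
        h, Nat.sub_self]
      by_cases h3 : x = a
      · rw [if_pos ⟨rfl, h3⟩, if_pos (by rw [h3]; rfl)]
      · rw [if_neg (fun h' => h3 h'.2), if_neg]
        intro h'
        exact h3 (Option.some.inj h')
    · rw [if_neg (c := X.reverse[c]? = some a) (by
          rw [List.getElem?_eq_none (by rw [List.length_reverse]; omega)]
          exact fun h => by cases h), zero_add,
        if_neg (fun h' => by have := h1.1 h'.1; omega),
        List.getElem?_eq_none (by
          rw [List.length_append, List.length_reverse, List.length_singleton]; omega),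
        if_neg (by exact fun h => by cases h)]

/-- weight of a pair of blocks -/
noncomputable def hh (q : ℕ) [NeZero q] (φ : ZMod q → ℤ) (a b : α) (X Y : List α) : ℤ :=
  ∑ c : ZMod q, ∑ g : ZMod q, φ g * (uc q a c X * uc q b (c + g) Y)

theorem hh_add_left [NeZero q] (φ : ZMod q → ℤ) (hφ : ∑ g, φ g = 0) (a b : α)
    (X X' Y : List α) (k : ℤ) (h : ∀ c : ZMod q, uc q a c X + uc q a c X' = k) :
    hh q φ a b X Y + hh q φ a b X' Y = 0 := by
  unfold hh
  rw [← Finset.sum_add_distrib]
  have h1 : ∀ c : ZMod q, (∑ g : ZMod q, φ g * (uc q a c X * uc q b (c + g) Y)) +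
      ∑ g : ZMod q, φ g * (uc q a c X' * uc q b (c + g) Y) =
      ∑ g : ZMod q, φ g * (k * uc q b (c + g) Y) := by
    intro c
    rw [← Finset.sum_add_distrib]
    refine Finset.sum_congr rfl fun g _ => ?_
    rw [← h c]; ring
  rw [Finset.sum_congr rfl fun c _ => h1 c, Finset.sum_comm]
  have h2 : ∀ g : ZMod q, ∑ c : ZMod q, φ g * (k * uc q b (c + g) Y) =
      φ g * (k * ∑ c : ZMod q, uc q b c Y) := by
    intro g
    rw [← Finset.mul_sum, ← Finset.mul_sum]
    congr 2
    exact Equiv.sum_comp (Equiv.addRight g) fun c => uc q b c Y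
  rw [Finset.sum_congr rfl fun g _ => h2 g, ← Finset.sum_mul, hφ, zero_mul]

theorem hh_add_right [NeZero q] (φ : ZMod q → ℤ) (hφ : ∑ g, φ g = 0) (a b : α)
    (X Y Y' : List α) (k : ℤ) (h : ∀ c : ZMod q, uc q b c Y + uc q b c Y' = k) :
    hh q φ a b X Y + hh q φ a b X Y' = 0 := by
  unfold hh
  rw [← Finset.sum_add_distrib]
  have h1 : ∀ c : ZMod q, (∑ g : ZMod q, φ g * (uc q a c X * uc q b (c + g) Y)) +
      ∑ g : ZMod q, φ g * (uc q a c X * uc q b (c + g) Y') = 0 := by
    intro c
    rw [← Finset.sum_add_distrib]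
    have h2 : ∀ g : ZMod q, φ g * (uc q a c X * uc q b (c + g) Y) +
        φ g * (uc q a c X * uc q b (c + g) Y') = φ g * (uc q a c X * k) := by
      intro g
      rw [← h (c + g)]; ring
    rw [Finset.sum_congr rfl fun g _ => h2 g, ← Finset.sum_mul, hφ, zero_mul]
  exact Finset.sum_eq_zero fun c _ => h1 c

theorem nat_rep [NeZero q] (c : ZMod q) : ((c.val : ℕ) : ZMod q) = c := ZMod.natCast_zmod_val c

open Classical in
theorem uc_blk' [NeZero q] (a : α) (B : Blk α q) (c : ZMod q) :
    uc q a c B.1 = if B.1[q - 1 - c.val]? = some a then 1 else 0 := by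
  classical
  have hc := ZMod.val_lt c
  have h1 := uc_blk (q := q) a B.1 B.2.le c.val hc
  rw [nat_rep] at h1
  have h2 : B.1.reverse[c.val]? = B.1[q - 1 - c.val]? := by
    rw [List.getElem?_reverse (by rw [B.2]; exact hc), B.2]
  rw [h1, h2]

theorem hh_cst_left [NeZero q] (φ : ZMod q → ℤ) (hφ : ∑ g, φ g = 0) (a b : α)
    {B : Blk α q} (hB : Cst B) (C : Blk α q) : hh q φ a b B.1 C.1 = 0 := by
  classical
  obtain ⟨x, hx⟩ := hB
  have h := hh_add_left φ hφ a b B.1 B.1 C.1 (2 * if x = a then 1 else 0) (fun c => by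
    have hc := ZMod.val_lt c
    rw [uc_blk', hx _ (by omega)]
    by_cases h : x = a
    · rw [if_pos (by rw [h]), if_pos h]; norm_num
    · rw [if_neg (fun h' => h (Option.some.inj h')), if_neg h]; norm_num)
  omega

theorem hh_cst_right [NeZero q] (φ : ZMod q → ℤ) (hφ : ∑ g, φ g = 0) (a b : α)
    (B : Blk α q) {C : Blk α q} (hC : Cst C) : hh q φ a b B.1 C.1 = 0 := by
  classical
  obtain ⟨x, hx⟩ := hC
  have h := hh_add_right φ hφ a b B.1 C.1 C.1 (2 * if x = b then 1 else 0) (fun c => by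
    have hc := ZMod.val_lt c
    rw [uc_blk', hx _ (by omega)]
    by_cases h : x = b
    · rw [if_pos (by rw [h]), if_pos h]; norm_num
    · rw [if_neg (fun h' => h (Option.some.inj h')), if_neg h]; norm_num)
  omega

theorem uc_exc [NeZero q] {B C : Blk α q} {x y : α} (hx : ∀ i, i < q →
      B.1[i]? = some (if i % 2 = 0 then x else y) ∧ C.1[i]? = some (if i % 2 = 0 then y else x))
    (a : α) [Decidable (x = a)] [Decidable (y = a)] (c : ZMod q) : uc q a c B.1 + uc q a c C.1 =
      (if x = a then 1 else 0) + if y = a then 1 else 0 := by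
  classical
  have hc := ZMod.val_lt c
  obtain ⟨h1, h2⟩ := hx (q - 1 - c.val) (by omega)
  rw [uc_blk', uc_blk', h1, h2]
  by_cases h : (q - 1 - c.val) % 2 = 0
  · rw [if_pos h, if_pos h]
    congr 1
    · exact if_congr ⟨fun h => Option.some.inj h, fun h => by rw [h]⟩ rfl rfl
    · exact if_congr ⟨fun h => Option.some.inj h, fun h => by rw [h]⟩ rfl rfl
  · rw [if_neg h, if_neg h, add_comm]
    congr 1
    · exact if_congr ⟨fun h => Option.some.inj h, fun h => by rw [h]⟩ rfl rfl
    · exact if_congr ⟨fun h => Option.some.inj h, fun h => by rw [h]⟩ rfl rfl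

theorem hh_exc [NeZero q] (φ : ZMod q → ℤ) (hφ : ∑ g, φ g = 0) (a b : α)
    {B C : Blk α q} (h : Exc B C) : hh q φ a b B.1 C.1 = hh q φ a b C.1 B.1 := by
  classical
  obtain ⟨x, y, hx⟩ := h
  -- h(B,B) + h(C,B) = 0 and h(B,B) + h(B,C) = 0
  have h1 := hh_add_left φ hφ a b B.1 C.1 B.1 _ (uc_exc hx a)
  have h2 := hh_add_right φ hφ a b B.1 B.1 C.1 _ (uc_exc hx b)
  omega

theorem exc_symm {B C : Blk α q} (h : Exc B C) : Exc C B := by
  obtain ⟨x, y, hx⟩ := h
  exact ⟨y, x, fun i hi => ⟨(hx i hi).2, (hx i hi).1⟩⟩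

theorem pc_swap {A : Type} {a b : A} (hab : a ≠ b) (w : List A) :
    pc a b w + pc b a w = ct a w * ct b w := by
  classical
  induction w using List.reverseRecOn with
  | nil => rfl
  | append_singleton w x ih =>
    rw [H487.pc_snoc, H487.pc_snoc, H487.ct_snoc, H487.ct_snoc]
    by_cases h1 : x = a
    · have h2 : ¬ x = b := fun h => hab (h1.symm.trans h)
      rw [if_pos h1, if_neg h2, if_pos h1, if_neg h2]
      linear_combination ih
    · by_cases h2 : x = b
      · rw [if_neg h1, if_pos h2, if_neg h1, if_pos h2]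
        linear_combination ih
      · rw [if_neg h1, if_neg h2, if_neg h1, if_neg h2]
        linear_combination ih

theorem lv_tc {m : ℕ} (a : α) (c : ZMod q) : Lv (m := m) q 0
    (fun X x => ((tc q a c X x : ℤ) : ZMod m)) fun X x => ((tc q a c X x : ℤ) : ZMod m) := by
  classical
  intro K' D' b _ hD
  have h0 : ((D'.length : ℕ) : ZMod q) = 0 := (ZMod.natCast_eq_zero_iff _ _).2 hD
  have h1 : ((K' ++ D').length : ZMod q) = (K'.length : ZMod q) := by
    rw [List.length_append, Nat.cast_add, h0, add_zero]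
  show ((tc q a c (K' ++ D') b : ℤ) : ZMod m) = ((tc q a c K' b : ℤ) : ZMod m)
  unfold tc
  rw [h1]

section known

variable [Finite α] [hq : NeZero q]

/-- the block part -/
noncomputable def ZZ (φ : ZMod q → ℤ) (a b : α) [Fintype (Blk α q)] (Bs : List (Blk α q)) : ℤ :=
  ∑ γ : Blk α q, ∑ β : Blk α q, pc γ β Bs * hh q φ a b γ.1 β.1

theorem ZZ_known [Fintype (Blk α q)] (φ : ZMod q → ℤ) (hφ : ∑ g, φ g = 0) (a b : α)
    (K : Par α q) (hC : ∀ γ : Blk α q, KnZ fun w => ct γ (ps K w))
    (h1 : ∀ γ β : Blk α q, γ ≠ β → ¬ Cst γ → ¬ Cst β → ¬ Exc γ β →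
      KnZ fun w => pc γ β (ps K w)) :
    KnZ fun w : List α => ZZ φ a b (ps K w) := by
  classical
  -- split into four parts
  have e1 : KnZ fun w : List α => ∑ γ : Blk α q, ∑ β : Blk α q,
      if γ = β then pc γ β (ps K w) * hh q φ a b γ.1 β.1 else 0 := by
    refine KnZ.sum _ fun γ _ => KnZ.sum _ fun β _ => ?_
    by_cases h : γ = β
    · subst h
      have h2 : KnZ fun w : List α => pc γ γ (ps K w) := by
        refine KnZ.div (c := 2) two_pos ?_
        exact (((hC γ).mul (hC γ)).sub (hC γ)).congr fun w => by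
          rw [Nat.cast_ofNat]
          exact H487.two_pc γ _
      exact (h2.mul_left (hh q φ a b γ.1 γ.1)).congr fun w => by rw [if_pos rfl]; ring
    · exact (KnZ.const 0).congr fun w => if_neg h
  have e2 : KnZ fun w : List α => ∑ γ : Blk α q, ∑ β : Blk α q,
      if γ ≠ β ∧ Exc γ β then pc γ β (ps K w) * hh q φ a b γ.1 β.1 else 0 := by
    refine KnZ.div (c := 2) two_pos ?_
    have h3 : KnZ fun w : List α => ∑ γ : Blk α q, ∑ β : Blk α q,
        if γ ≠ β ∧ Exc γ β then ct γ (ps K w) * ct β (ps K w) * hh q φ a b γ.1 β.1 else 0 := by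
      refine KnZ.sum _ fun γ _ => KnZ.sum _ fun β _ => ?_
      by_cases h : γ ≠ β ∧ Exc γ β
      · exact (((hC γ).mul (hC β)).mul_left (hh q φ a b γ.1 β.1)).congr fun w => by
          rw [if_pos h]; ring
      · exact (KnZ.const 0).congr fun w => if_neg h
    refine h3.congr fun w => ?_
    have h4 : (∑ γ : Blk α q, ∑ β : Blk α q,
        if γ ≠ β ∧ Exc γ β then pc γ β (ps K w) * hh q φ a b γ.1 β.1 else 0) =
        ∑ γ : Blk α q, ∑ β : Blk α q,
        if γ ≠ β ∧ Exc γ β then pc β γ (ps K w) * hh q φ a b γ.1 β.1 else 0 := by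
      rw [Finset.sum_comm]
      refine Finset.sum_congr rfl fun γ _ => Finset.sum_congr rfl fun β _ => ?_
      by_cases h : γ ≠ β ∧ Exc γ β
      · have h' : β ≠ γ ∧ Exc β γ := ⟨h.1.symm, exc_symm h.2⟩
        rw [if_pos h, if_pos h', hh_exc φ hφ a b h.2]
      · have h' : ¬ (β ≠ γ ∧ Exc β γ) := fun h' => h ⟨h'.1.symm, exc_symm h'.2⟩
        rw [if_neg h, if_neg h']
    rw [Nat.cast_ofNat, two_mul]
    conv_lhs => rw [h4]
    conv_lhs => arg 1; rw [← h4]
    rw [← Finset.sum_add_distrib]
    refine Finset.sum_congr rfl fun γ _ => ?_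
    rw [← Finset.sum_add_distrib]
    refine Finset.sum_congr rfl fun β _ => ?_
    by_cases h : γ ≠ β ∧ Exc γ β
    · rw [if_pos h, if_pos h, if_pos h, ← pc_swap h.1]; ring
    · rw [if_neg h, if_neg h, if_neg h, add_zero]
  have e3 : KnZ fun w : List α => ∑ γ : Blk α q, ∑ β : Blk α q,
      if γ ≠ β ∧ ¬ Exc γ β then pc γ β (ps K w) * hh q φ a b γ.1 β.1 else 0 := by
    refine KnZ.sum _ fun γ _ => KnZ.sum _ fun β _ => ?_
    by_cases h : γ ≠ β ∧ ¬ Exc γ β
    · by_cases h5 : Cst γ
      · exact (KnZ.const 0).congr fun w => by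
          rw [if_pos h, hh_cst_left φ hφ a b h5, mul_zero]
      by_cases h6 : Cst β
      · exact (KnZ.const 0).congr fun w => by
          rw [if_pos h, hh_cst_right φ hφ a b γ h6, mul_zero]
      exact ((h1 γ β h.1 h5 h6 h.2).mul_left (hh q φ a b γ.1 β.1)).congr fun w => by
        rw [if_pos h]; ring
    · exact (KnZ.const 0).congr fun w => if_neg h
  refine ((e1.add e2).add e3).congr fun w => ?_
  unfold ZZ
  rw [← Finset.sum_add_distrib, ← Finset.sum_add_distrib]
  refine Finset.sum_congr rfl fun γ _ => ?_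
  rw [← Finset.sum_add_distrib, ← Finset.sum_add_distrib]
  refine Finset.sum_congr rfl fun β _ => ?_
  by_cases h : γ = β
  · rw [if_pos h, if_neg (fun h' => h'.1 h), if_neg (fun h' => h'.1 h)]; ring
  · by_cases h5 : Exc γ β
    · rw [if_neg h, if_pos ⟨h, h5⟩, if_neg (fun h' => h'.2 h5)]; ring
    · rw [if_neg h, if_neg (fun h' => h5 h'.2), if_pos ⟨h, h5⟩]; ring

/-- the twisted pair sum -/
noncomputable def TT (q : ℕ) [NeZero q] (φ : ZMod q → ℤ) (a b : α) (X : List α) : ℤ :=
  ∑ c : ZMod q, ∑ g : ZMod q, φ g * PZ (tc q a c) (tc q b (c + g)) X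

theorem TT_known (hR : ∀ K : Par α q, Kn (rm K)) (φ : ZMod q → ℤ) (hφ : ∑ g, φ g = 0) (a b : α)
    (hC : ∀ (K : Par α q) (γ : Blk α q), KnZ fun w => ct γ (ps K w))
    (h1 : ∀ (K : Par α q) (γ β : Blk α q), γ ≠ β → ¬ Cst γ → ¬ Cst β → ¬ Exc γ β →
      KnZ fun w => pc γ β (ps K w)) :
    KnZ fun w : List α => TT q φ a b w.reverse := by
  classical
  have := Fintype.ofFinite (Blk α q)
  intro m hm
  haveI : NeZero m := ⟨hm.ne'⟩
  let K : Par α q := ⟨[], Nat.pos_of_ne_zero hq.out⟩
  let f : ZMod q → List α → α → ZMod m := fun c X x => ((tc q a c X x : ℤ) : ZMod m)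
  let g : ZMod q → List α → α → ZMod m := fun c X x => ((tc q b c X x : ℤ) : ZMod m)
  have k1 : ∀ t : List α → α → ZMod m, Kn fun w : List α => SB t (ps K w) := by
    intro t
    refine Eq.mp (congrArg Kn ?_) (kn_sum Finset.univ fun (β : Blk α q) _ =>
      ((hC K β) m hm).comp fun x => x * SS t β.1)
    funext w
    exact (SB_eq t _).symm
  have k2 : ∀ F : Blk α q → ZMod m, Kn fun w : List α =>
      ∑ β : Blk α q, ((ct β (ps K w) : ℤ) : ZMod m) * F β := by
    intro F
    exact kn_sum Finset.univ fun (β : Blk α q) _ => ((hC K β) m hm).comp fun x => x * F β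
  have k3 : Kn fun w : List α => ((ZZ φ a b (ps K w) : ℤ) : ZMod m) :=
    ZZ_known φ hφ a b K (hC K) (h1 K) m hm
  have k4 : Kn fun w : List α => fun (cd : ZMod q × ZMod q) =>
      SB (f cd.1) (ps K w) := Kn.pi fun cd => k1 _
  have k5 := ((k3.pair (k2 fun β => ∑ c : ZMod q, ∑ d : ZMod q, ((φ d : ℤ) : ZMod m) *
    PP (f c) (g (c + d)) β.1)).pair (k4.pair (hR K))).comp fun t =>
      t.1.1 + t.1.2 + ∑ c : ZMod q, ∑ d : ZMod q, ((φ d : ℤ) : ZMod m) *
        (t.2.1 (c, d) * SS (g (c + d)) t.2.2.1 + PP (f c) (g (c + d)) t.2.2.1)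
  refine Eq.mp (congrArg Kn ?_) k5
  funext w
  have h2 : ∀ c d : ZMod q, ((PZ (tc q a c) (tc q b (c + d)) w.reverse : ℤ) : ZMod m) =
      (∑ β, ((ct β (ps K w) : ℤ) : ZMod m) * PP (f c) (g (c + d)) β.1 +
      ∑ γ, ∑ β, ((pc γ β (ps K w) : ℤ) : ZMod m) * (SS (f c) γ.1 * SS (g (c + d)) β.1)) +
      (SB (f c) (ps K w) * SS (g (c + d)) (rm K w).1 + PP (f c) (g (c + d)) (rm K w).1) := by
    intro c d
    have h3 := PP_blk (lv_tc (m := m) a c) (lv_tc (m := m) b (c + d)) w K []
      (by rw [List.length_nil]; exact dvd_zero q)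
    have h4 : w.reverse ++ (K.1 ++ []) = w.reverse := by
      show w.reverse ++ ([] ++ []) = w.reverse
      rw [List.append_nil, List.append_nil]
    rw [h4] at h3
    rw [PZ_cast, h3, ← PB_eq]
    show (0 : ZMod m) + 0 * _ + _ + _ + _ = _
    ring
  have h5 : ((TT q φ a b w.reverse : ℤ) : ZMod m) = ∑ c : ZMod q, ∑ d : ZMod q,
      ((φ d : ℤ) : ZMod m) * ((∑ β, ((ct β (ps K w) : ℤ) : ZMod m) * PP (f c) (g (c + d)) β.1 +
      ∑ γ, ∑ β, ((pc γ β (ps K w) : ℤ) : ZMod m) * (SS (f c) γ.1 * SS (g (c + d)) β.1)) +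
      (SB (f c) (ps K w) * SS (g (c + d)) (rm K w).1 + PP (f c) (g (c + d)) (rm K w).1)) := by
    unfold TT
    push_cast
    refine Finset.sum_congr rfl fun c _ => Finset.sum_congr rfl fun d _ => ?_
    rw [h2]
  rw [h5]
  have h6 : ((ZZ φ a b (ps K w) : ℤ) : ZMod m) = ∑ c : ZMod q, ∑ d : ZMod q,
      ((φ d : ℤ) : ZMod m) *
      ∑ γ, ∑ β, ((pc γ β (ps K w) : ℤ) : ZMod m) * (SS (f c) γ.1 * SS (g (c + d)) β.1) := by
    have h7 : ∀ (c : ZMod q) (γ : Blk α q), ((uc q a c γ.1 : ℤ) : ZMod m) = SS (f c) γ.1 :=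
      fun c γ => SS_cast _ _
    have h8 : ∀ (c : ZMod q) (γ : Blk α q), ((uc q b c γ.1 : ℤ) : ZMod m) = SS (g c) γ.1 :=
      fun c γ => SS_cast _ _
    unfold ZZ hh
    push_cast
    simp only [h7, h8, Finset.mul_sum]
    rw [Finset.sum_congr rfl fun γ _ => Finset.sum_comm]
    rw [Finset.sum_comm]
    refine Finset.sum_congr rfl fun c _ => ?_
    rw [Finset.sum_congr rfl fun γ _ => Finset.sum_comm]
    rw [Finset.sum_comm]
    refine Finset.sum_congr rfl fun d _ => Finset.sum_congr rfl fun γ _ =>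
      Finset.sum_congr rfl fun β _ => ?_
    ring
  have h9 : (∑ β, ((ct β (ps K w) : ℤ) : ZMod m) * ∑ c : ZMod q, ∑ d : ZMod q,
      ((φ d : ℤ) : ZMod m) * PP (f c) (g (c + d)) β.1) = ∑ c : ZMod q, ∑ d : ZMod q,
      ((φ d : ℤ) : ZMod m) * ∑ β, ((ct β (ps K w) : ℤ) : ZMod m) * PP (f c) (g (c + d)) β.1 := by
    simp only [Finset.mul_sum]
    rw [Finset.sum_comm]
    refine Finset.sum_congr rfl fun c _ => ?_
    rw [Finset.sum_comm]
    refine Finset.sum_congr rfl fun d _ => Finset.sum_congr rfl fun β _ => ?_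
    ring
  show ((ZZ φ a b (ps K w) : ℤ) : ZMod m) + (∑ β, ((ct β (ps K w) : ℤ) : ZMod m) *
    ∑ c : ZMod q, ∑ d : ZMod q, ((φ d : ℤ) : ZMod m) * PP (f c) (g (c + d)) β.1) +
    (∑ c : ZMod q, ∑ d : ZMod q, ((φ d : ℤ) : ZMod m) *
        (SB (f c) (ps K w) * SS (g (c + d)) (rm K w).1 + PP (f c) (g (c + d)) (rm K w).1)) = _
  rw [h6, h9, ← Finset.sum_add_distrib, ← Finset.sum_add_distrib]
  refine Finset.sum_congr rfl fun c _ => ?_
  rw [← Finset.sum_add_distrib, ← Finset.sum_add_distrib]
  refine Finset.sum_congr rfl fun d _ => ?_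
  ring

/-- **pair counts with the distance modulo `q`** -/
theorem pg_known (hR : ∀ K : Par α q, Kn (rm K))
    (hC : ∀ (K : Par α q) (γ : Blk α q), KnZ fun w => ct γ (ps K w))
    (h1 : ∀ (K : Par α q) (γ β : Blk α q), γ ≠ β → ¬ Cst γ → ¬ Cst β → ¬ Exc γ β →
      KnZ fun w => pc γ β (ps K w)) (a b : α) (g : ZMod q) :
    KnZ fun w : List α => pg q g a b w.reverse := by
  classical
  apply KnZ.div (c := q) (Nat.pos_of_ne_zero hq.out)
  let φ : ZMod q → ℤ := fun d => (if d = g then (q : ℤ) else 0) - 1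
  have hφ : ∑ d, φ d = 0 := by
    show ∑ d : ZMod q, ((if d = g then (q : ℤ) else 0) - 1) = 0
    rw [Finset.sum_sub_distrib, Finset.sum_ite_eq', if_pos (Finset.mem_univ _),
      Finset.sum_const, Finset.card_univ, ZMod.card, nsmul_eq_mul, mul_one, sub_self]
  refine ((TT_known hR φ hφ a b hC h1).add (H487.pairH α a b)).congr fun w => ?_
  have h2 := pz_total (q := q) a b w.reverse
  rw [List.reverse_reverse] at h2
  rw [← h2, pg_eq]
  unfold TT
  rw [← Finset.sum_add_distrib, Finset.mul_sum]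
  refine Finset.sum_congr rfl fun c _ => ?_
  have h3 : ∑ d : ZMod q, PZ (tc q a c) (tc q b d) w.reverse =
      ∑ d : ZMod q, PZ (tc q a c) (tc q b (c + d)) w.reverse :=
    (Equiv.sum_comp (Equiv.addLeft c) fun d => PZ (tc q a c) (tc q b d) w.reverse).symm
  rw [h3, ← Finset.sum_add_distrib, Finset.sum_eq_single g]
  · show _ = ((if g = g then (q : ℤ) else 0) - 1) * _ + _
    rw [if_pos rfl]; ring
  · intro d _ hd
    show ((if d = g then (q : ℤ) else 0) - 1) * _ + _ = 0
    rw [if_neg hd]; ring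
  · intro h; exact absurd (Finset.mem_univ _) h

end known

end Vale.Agent.P329.H672.Q2
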