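import Vale.Agent.P329.H672.Q2
import Vale.Agent.P329.H265.CtxN

/-! Counts of blocks and open blocks, every block length. -/

set_option linter.all false

namespace Vale.Agent.P329.H672.Q2

open Vale.Agent.P329 Vale.Agent.P329.H559 Vale.Agent.P329.H559.C2 Vale.Agent.P329.H672.C2

variable {α : Type} {q : ℕ}

theorem rm_knownN [Finite α] [hq : NeZero q] (K : Par α q) : Kn (rm K) := by
  intro K'
  have hq0 : 0 < q := Nat.pos_of_ne_zero hq.out
  have h1 := H265.AllN.locK_all hq0 α q
    (fun X => (X ++ K.1).take ((X.length + K.1.length) % q) = K'.1) (by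
      intro X Y h1 h2
      have h3 : (X.length + K.1.length) % q = (Y.length + K.1.length) % q :=
        Nat.ModEq.add_right _ h1
      rw [h3, take_app h2 (Nat.mod_lt _ hq0).le])
  refine Eq.mp (congrArg (SH 1) ?_) h1
  ext w
  rw [Set.mem_ofPred_eq, Set.mem_ofPred_eq, List.length_reverse, ← rm_eq]
  exact ⟨fun h => Subtype.ext h, fun h => congrArg Subtype.val h⟩

open Classical in
/-- completion of the block `γ` inside a block -/
noncomputable def fb (m : ℕ) (γ : Blk α q) (X : List α) (b : α) : ZMod m :=
  if b :: X = γ.1 then 1 else 0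

open Classical in
/-- completion of the block `γ` in a word -/
noncomputable def fw (m : ℕ) (γ : Blk α q) (X : List α) (b : α) : ZMod m :=
  if (X.length + 1) % q = 0 ∧ (b :: X).take q = γ.1 then 1 else 0

theorem lv_fw {m : ℕ} (γ : Blk α q) : Lv q 0 (fw m γ) (fb m γ) := by
  classical
  intro K' D' b hK hD
  have hD' : q ∣ D'.length := hD
  unfold fw fb
  by_cases h : K'.length + 1 = q
  · have h1 : ((K' ++ D').length + 1) % q = 0 := by
      rw [List.length_append, Nat.add_right_comm, h]
      exact Nat.mod_eq_zero_of_dvd (dvd_add (dvd_refl q) hD')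
    have h2 : (b :: (K' ++ D')).take q = b :: K' := by
      rw [← List.cons_append, List.take_append_of_le_length (by rw [List.length_cons]; omega),
        List.take_of_length_le (by rw [List.length_cons]; omega)]
    rw [h2]
    exact if_congr ⟨fun h => h.2, fun h => ⟨h1, h⟩⟩ rfl rfl
  · have h1 : ¬ ((K' ++ D').length + 1) % q = 0 := by
      intro h3
      have h4 : q ∣ K'.length + 1 := by
        have h5 := Nat.dvd_of_mod_eq_zero h3
        rw [List.length_append, Nat.add_right_comm] at h5
        exact (Nat.dvd_add_left hD').1 h5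
      have := Nat.le_of_dvd (Nat.succ_pos _) h4
      omega
    have h2 : ¬ b :: K' = γ.1 := by
      intro h3
      have h4 := congrArg List.length h3
      rw [List.length_cons, γ.2] at h4
      exact h h4
    rw [if_neg (fun h => h1 h.1), if_neg h2]

open Classical in
theorem SS_fb {m : ℕ} (hq : 0 < q) (γ : Blk α q) (L : List α) (hL : L.length ≤ q) :
    SS (fb m γ) L = if L = γ.1 then 1 else 0 := by
  induction L with
  | nil =>
    rw [SS, if_neg]
    intro h
    have h4 := congrArg List.length h
    rw [List.length_nil, γ.2] at h4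
    omega
  | cons x L ih =>
    rw [List.length_cons] at hL
    have h1 : ¬ L = γ.1 := by
      intro h
      have h4 := congrArg List.length h
      rw [γ.2] at h4
      omega
    rw [SS, ih (by omega), if_neg h1, zero_add, fb]

theorem SB_fb {m : ℕ} (hq : 0 < q) (γ : Blk α q) (Bs : List (Blk α q)) :
    SB (fb m γ) Bs = ((ct γ Bs : ℤ) : ZMod m) := by
  classical
  induction Bs with
  | nil => rw [SB, ct, Int.cast_zero]
  | cons B Bs ih =>
    rw [SB, ih, ct, SS_fb hq γ B.1 B.2.le]
    by_cases h : B = γ
    · rw [if_pos h, if_pos (congrArg Subtype.val h)]; push_cast; rfl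
    · rw [if_neg h, if_neg (fun h' => h (Subtype.ext h'))]; push_cast; rfl

theorem SS_shift {A : Type} [AddCommMonoid A] (f : List α → α → A) (K X : List α) :
    SS f (X ++ K) = SS f K + SS (fun X b => f (X ++ K) b) X := by
  induction X with
  | nil => rw [List.nil_append, SS, add_zero]
  | cons b X ih => rw [List.cons_append, SS, SS, ih, add_assoc]

theorem ct_knownN [Finite α] [hq : NeZero q] (K : Par α q) (γ : Blk α q) :
    KnZ fun w : List α => ct γ (ps K w) := by
  classical
  have hq0 : 0 < q := Nat.pos_of_ne_zero hq.out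
  intro m hm
  haveI : NeZero m := ⟨hm.ne'⟩
  have h1 := H265.AllN.KSn (α := α) m hq0 q (fun X b => fw m γ (X ++ K.1) b) (by
    intro X Y b h1 h2
    have h3 : (X ++ K.1).length % q = (Y ++ K.1).length % q := by
      rw [List.length_append, List.length_append]
      exact Nat.ModEq.add_right _ h1
    have h4 : ((X ++ K.1).length + 1) % q = ((Y ++ K.1).length + 1) % q :=
      Nat.ModEq.add_right 1 h3
    have h5 : (b :: (X ++ K.1)).take q = (b :: (Y ++ K.1)).take q := by
      obtain ⟨q', rfl⟩ : ∃ q', q = q' + 1 := ⟨q - 1, by omega⟩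
      rw [List.take_succ_cons, List.take_succ_cons, take_app h2 (Nat.le_succ q')]
    show fw m γ (X ++ K.1) b = fw m γ (Y ++ K.1) b
    unfold fw
    rw [h4, h5])
  refine Eq.mp (congrArg Kn ?_) (h1.comp fun x => SS (fw m γ) K.1 + x)
  funext w
  have h2 := SS_blk (lv_fw (m := m) γ) w K [] (by rw [List.length_nil]; exact dvd_zero q)
  have h3 : SS (fb m γ) (rm K w).1 = 0 := by
    rw [SS_fb hq0 γ _ (rm K w).2.le, if_neg]
    intro h
    have h4 := congrArg List.length h
    rw [γ.2] at h4
    have := (rm K w).2
    omega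
  rw [List.append_nil, SS_shift, h3, add_zero, SB_fb hq0] at h2
  show SS (fw m γ) K.1 + SS (fun X b => fw m γ (X ++ K.1) b) w.reverse = _
  rw [h2]
  show (0 : ZMod m) + _ = _
  rw [zero_add]

/-- **pair counts with the distance modulo `q`, from the pair counts of blocks** -/
theorem pg_knownN [Finite α] [hq : NeZero q]
    (h1 : ∀ (K : Par α q) (γ β : Blk α q), γ ≠ β → ¬ Cst γ → ¬ Cst β → ¬ Exc γ β →
      KnZ fun w => pc γ β (ps K w)) (a b : α) (g : ZMod q) :
    KnZ fun w : List α => pg q g a b w.reverse :=
  pg_known rm_knownN ct_knownN h1 a b g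

/-- number of letters `a` at the clock `c` -/
theorem uc_known [Finite α] [hq : NeZero q] (a : α) (c : ZMod q) :
    KnZ fun w : List α => uc q a c w.reverse := by
  classical
  have hq0 : 0 < q := Nat.pos_of_ne_zero hq.out
  intro m hm
  haveI : NeZero m := ⟨hm.ne'⟩
  have h1 := H265.AllN.KSn (α := α) m hq0 0 (fun X b => ((tc q a c X b : ℤ) : ZMod m)) (by
    intro X Y b h1 _
    have h3 : (X.length : ZMod q) = (Y.length : ZMod q) :=
      (ZMod.natCast_eq_natCast_iff _ _ _).2 h1
    show ((tc q a c X b : ℤ) : ZMod m) = ((tc q a c Y b : ℤ) : ZMod m)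
    unfold tc
    rw [h3])
  refine Eq.mp (congrArg Kn ?_) h1
  funext w
  exact (SS_cast _ _).symm

end Vale.Agent.P329.H672.Q2
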