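import Vale.Agent.P329.H672.Q2c
import Vale.Agent.P329.H766.Q2

/-! Pair counts with the distance modulo a prime, in the notation of `H766`. -/

set_option linter.all false

namespace Vale.Agent.P329.H672.Q2

open Vale.Agent.P329

variable {α : Type}

theorem nc_same (n : ℕ) (a : α) (r : ZMod n) (X : List α) : H766.Q2.nc n a r X = nc n a r X := by
  classical
  induction X with
  | nil => rfl
  | cons x X ih => rw [H766.Q2.nc, nc, ih]

theorem PG_same (n : ℕ) (g : ZMod n) (a b : α) (X : List α) :
    H766.Q2.PG n g a b X = PG n g a b X := by
  classical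
  induction X with
  | nil => rfl
  | cons x X ih => rw [H766.Q2.PG, PG, ih, nc_same]

/-- pair counts with the distance modulo a prime -/
theorem pg766 [Finite α] {N : ℕ} (hN : N.Prime) (g : ZMod N) (a b : α) :
    KnZ fun w : List α => H766.Q2.PG N g a b w.reverse :=
  (PG_known hN g a b).congr fun w => PG_same N g a b w.reverse

end Vale.Agent.P329.H672.Q2
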