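import Vale.Agent.P329.H672.Q2d

/-! Pair counts with the distance modulo any number: primitive weights. -/

set_option linter.all false

namespace Vale.Agent.P329.H672.Q2

open Vale.Agent.P329 Vale.Agent.P329.H559 Vale.Agent.P329.H559.C2 Vale.Agent.P329.H672.C2

variable {α : Type} {q : ℕ}

section known

variable [Finite α] [hq : NeZero q]

theorem ZZ_gen [Fintype (Blk α q)] (φ : ZMod q → ℤ) (a b : α) {F : Blk α q → Prop}
    {E : Blk α q → Blk α q → Prop} (hEs : ∀ γ β, E γ β → E β γ)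
    (hFl : ∀ γ β : Blk α q, F γ → hh q φ a b γ.1 β.1 = 0)
    (hFr : ∀ γ β : Blk α q, F β → hh q φ a b γ.1 β.1 = 0)
    (hE : ∀ γ β : Blk α q, E γ β → hh q φ a b γ.1 β.1 = hh q φ a b β.1 γ.1)
    (K : Par α q) (hC : ∀ γ : Blk α q, KnZ fun w => ct γ (ps K w))
    (h1 : ∀ γ β : Blk α q, γ ≠ β → ¬ F γ → ¬ F β → ¬ E γ β →
      KnZ fun w => pc γ β (ps K w)) :
    KnZ fun w : List α => ZZ φ a b (ps K w) := by
  classical
  have e1 : KnZ fun w : List α => ∑ γ : Blk α q, ∑ β : Blk α q,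
      if γ = β then pc γ β (ps K w) * hh q φ a b γ.1 β.1 else 0 := by
    refine KnZ.sum _ fun γ _ => KnZ.sum _ fun β _ => ?_
    by_cases h : γ = β
    · subst h
      have h2 : KnZ fun w : List α => pc γ γ (ps K w) := by
        refine KnZ.div (c := 2) two_pos ?_
        exact (((hC γ).mul (hC γ)).sub (hC γ)).congr fun w => by
          rw [Nat.cast_ofNat]
          exact H487.two_pc γ _
      exact (h2.mul_left (hh q φ a b γ.1 γ.1)).congr fun w => by rw [if_pos rfl]; ring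
    · exact (KnZ.const 0).congr fun w => if_neg h
  have e2 : KnZ fun w : List α => ∑ γ : Blk α q, ∑ β : Blk α q,
      if γ ≠ β ∧ E γ β then pc γ β (ps K w) * hh q φ a b γ.1 β.1 else 0 := by
    refine KnZ.div (c := 2) two_pos ?_
    have h3 : KnZ fun w : List α => ∑ γ : Blk α q, ∑ β : Blk α q,
        if γ ≠ β ∧ E γ β then ct γ (ps K w) * ct β (ps K w) * hh q φ a b γ.1 β.1 else 0 := by
      refine KnZ.sum _ fun γ _ => KnZ.sum _ fun β _ => ?_
      by_cases h : γ ≠ β ∧ E γ β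
      · exact (((hC γ).mul (hC β)).mul_left (hh q φ a b γ.1 β.1)).congr fun w => by
          rw [if_pos h]; ring
      · exact (KnZ.const 0).congr fun w => if_neg h
    refine h3.congr fun w => ?_
    have h4 : (∑ γ : Blk α q, ∑ β : Blk α q,
        if γ ≠ β ∧ E γ β then pc γ β (ps K w) * hh q φ a b γ.1 β.1 else 0) =
        ∑ γ : Blk α q, ∑ β : Blk α q,
        if γ ≠ β ∧ E γ β then pc β γ (ps K w) * hh q φ a b γ.1 β.1 else 0 := by
      rw [Finset.sum_comm]
      refine Finset.sum_congr rfl fun γ _ => Finset.sum_congr rfl fun β _ => ?_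
      by_cases h : γ ≠ β ∧ E γ β
      · have h' : β ≠ γ ∧ E β γ := ⟨h.1.symm, hEs _ _ h.2⟩
        rw [if_pos h, if_pos h', hE _ _ h.2]
      · have h' : ¬ (β ≠ γ ∧ E β γ) := fun h' => h ⟨h'.1.symm, hEs _ _ h'.2⟩
        rw [if_neg h, if_neg h']
    rw [Nat.cast_ofNat, two_mul]
    conv_lhs => rw [h4]
    conv_lhs => arg 1; rw [← h4]
    rw [← Finset.sum_add_distrib]
    refine Finset.sum_congr rfl fun γ _ => ?_
    rw [← Finset.sum_add_distrib]
    refine Finset.sum_congr rfl fun β _ => ?_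
    by_cases h : γ ≠ β ∧ E γ β
    · rw [if_pos h, if_pos h, if_pos h, ← pc_swap h.1]; ring
    · rw [if_neg h, if_neg h, if_neg h, add_zero]
  have e3 : KnZ fun w : List α => ∑ γ : Blk α q, ∑ β : Blk α q,
      if γ ≠ β ∧ ¬ E γ β then pc γ β (ps K w) * hh q φ a b γ.1 β.1 else 0 := by
    refine KnZ.sum _ fun γ _ => KnZ.sum _ fun β _ => ?_
    by_cases h : γ ≠ β ∧ ¬ E γ β
    · by_cases h5 : F γ
      · exact (KnZ.const 0).congr fun w => by
          rw [if_pos h, hFl γ β h5, mul_zero]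
      by_cases h6 : F β
      · exact (KnZ.const 0).congr fun w => by
          rw [if_pos h, hFr γ β h6, mul_zero]
      exact ((h1 γ β h.1 h5 h6 h.2).mul_left (hh q φ a b γ.1 β.1)).congr fun w => by
        rw [if_pos h]; ring
    · exact (KnZ.const 0).congr fun w => if_neg h
  refine ((e1.add e2).add e3).congr fun w => ?_
  unfold ZZ
  rw [← Finset.sum_add_distrib, ← Finset.sum_add_distrib]
  refine Finset.sum_congr rfl fun γ _ => ?_
  rw [← Finset.sum_add_distrib, ← Finset.sum_add_distrib]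
  refine Finset.sum_congr rfl fun β _ => ?_
  by_cases h : γ = β
  · rw [if_pos h, if_neg (fun h' => h'.1 h), if_neg (fun h' => h'.1 h)]; ring
  · by_cases h5 : E γ β
    · rw [if_neg h, if_pos ⟨h, h5⟩, if_neg (fun h' => h'.2 h5)]; ring
    · rw [if_neg h, if_neg (fun h' => h5 h'.2), if_pos ⟨h, h5⟩]; ring

theorem TT_gen (φ : ZMod q → ℤ) (a b : α) {F : Blk α q → Prop}
    {E : Blk α q → Blk α q → Prop} (hEs : ∀ γ β, E γ β → E β γ)
    (hFl : ∀ γ β : Blk α q, F γ → hh q φ a b γ.1 β.1 = 0)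
    (hFr : ∀ γ β : Blk α q, F β → hh q φ a b γ.1 β.1 = 0)
    (hE : ∀ γ β : Blk α q, E γ β → hh q φ a b γ.1 β.1 = hh q φ a b β.1 γ.1)
    (h1 : ∀ (K : Par α q) (γ β : Blk α q), γ ≠ β → ¬ F γ → ¬ F β → ¬ E γ β →
      KnZ fun w => pc γ β (ps K w)) :
    KnZ fun w : List α => TT q φ a b w.reverse := by
  classical
  have := Fintype.ofFinite (Blk α q)
  intro m hm
  haveI : NeZero m := ⟨hm.ne'⟩
  let K : Par α q := ⟨[], Nat.pos_of_ne_zero hq.out⟩
  let f : ZMod q → List α → α → ZMod m := fun c X x => ((tc q a c X x : ℤ) : ZMod m)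
  let g : ZMod q → List α → α → ZMod m := fun c X x => ((tc q b c X x : ℤ) : ZMod m)
  have k1 : ∀ t : List α → α → ZMod m, Kn fun w : List α => SB t (ps K w) := by
    intro t
    refine Eq.mp (congrArg Kn ?_) (kn_sum Finset.univ fun (β : Blk α q) _ =>
      ((ct_knownN K β) m hm).comp fun x => x * SS t β.1)
    funext w
    exact (SB_eq t _).symm
  have k2 : ∀ F : Blk α q → ZMod m, Kn fun w : List α =>
      ∑ β : Blk α q, ((ct β (ps K w) : ℤ) : ZMod m) * F β := by
    intro F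
    exact kn_sum Finset.univ fun (β : Blk α q) _ => ((ct_knownN K β) m hm).comp fun x => x * F β
  have k3 : Kn fun w : List α => ((ZZ φ a b (ps K w) : ℤ) : ZMod m) :=
    ZZ_gen φ a b hEs hFl hFr hE K (ct_knownN K) (h1 K) m hm
  have k4 : Kn fun w : List α => fun (cd : ZMod q × ZMod q) =>
      SB (f cd.1) (ps K w) := Kn.pi fun cd => k1 _
  have k5 := ((k3.pair (k2 fun β => ∑ c : ZMod q, ∑ d : ZMod q, ((φ d : ℤ) : ZMod m) *
    PP (f c) (g (c + d)) β.1)).pair (k4.pair (rm_knownN K))).comp fun t =>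
      t.1.1 + t.1.2 + ∑ c : ZMod q, ∑ d : ZMod q, ((φ d : ℤ) : ZMod m) *
        (t.2.1 (c, d) * SS (g (c + d)) t.2.2.1 + PP (f c) (g (c + d)) t.2.2.1)
  refine Eq.mp (congrArg Kn ?_) k5
  funext w
  have h2 : ∀ c d : ZMod q, ((PZ (tc q a c) (tc q b (c + d)) w.reverse : ℤ) : ZMod m) =
      (∑ β, ((ct β (ps K w) : ℤ) : ZMod m) * PP (f c) (g (c + d)) β.1 +
      ∑ γ, ∑ β, ((pc γ β (ps K w) : ℤ) : ZMod m) * (SS (f c) γ.1 * SS (g (c + d)) β.1)) +
      (SB (f c) (ps K w) * SS (g (c + d)) (rm K w).1 + PP (f c) (g (c + d)) (rm K w).1) := by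
    intro c d
    have h3 := PP_blk (lv_tc (m := m) a c) (lv_tc (m := m) b (c + d)) w K []
      (by rw [List.length_nil]; exact dvd_zero q)
    have h4 : w.reverse ++ (K.1 ++ []) = w.reverse := by
      show w.reverse ++ ([] ++ []) = w.reverse
      rw [List.append_nil, List.append_nil]
    rw [h4] at h3
    rw [PZ_cast, h3, ← PB_eq]
    show (0 : ZMod m) + 0 * _ + _ + _ + _ = _
    ring
  have h5 : ((TT q φ a b w.reverse : ℤ) : ZMod m) = ∑ c : ZMod q, ∑ d : ZMod q,
      ((φ d : ℤ) : ZMod m) * ((∑ β, ((ct β (ps K w) : ℤ) : ZMod m) * PP (f c) (g (c + d)) β.1 +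
      ∑ γ, ∑ β, ((pc γ β (ps K w) : ℤ) : ZMod m) * (SS (f c) γ.1 * SS (g (c + d)) β.1)) +
      (SB (f c) (ps K w) * SS (g (c + d)) (rm K w).1 + PP (f c) (g (c + d)) (rm K w).1)) := by
    unfold TT
    push_cast
    refine Finset.sum_congr rfl fun c _ => Finset.sum_congr rfl fun d _ => ?_
    rw [h2]
  rw [h5]
  have h6 : ((ZZ φ a b (ps K w) : ℤ) : ZMod m) = ∑ c : ZMod q, ∑ d : ZMod q,
      ((φ d : ℤ) : ZMod m) *
      ∑ γ, ∑ β, ((pc γ β (ps K w) : ℤ) : ZMod m) * (SS (f c) γ.1 * SS (g (c + d)) β.1) := by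
    have h7 : ∀ (c : ZMod q) (γ : Blk α q), ((uc q a c γ.1 : ℤ) : ZMod m) = SS (f c) γ.1 :=
      fun c γ => SS_cast _ _
    have h8 : ∀ (c : ZMod q) (γ : Blk α q), ((uc q b c γ.1 : ℤ) : ZMod m) = SS (g c) γ.1 :=
      fun c γ => SS_cast _ _
    unfold ZZ hh
    push_cast
    simp only [h7, h8, Finset.mul_sum]
    rw [Finset.sum_congr rfl fun γ _ => Finset.sum_comm]
    rw [Finset.sum_comm]
    refine Finset.sum_congr rfl fun c _ => ?_
    rw [Finset.sum_congr rfl fun γ _ => Finset.sum_comm]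
    rw [Finset.sum_comm]
    refine Finset.sum_congr rfl fun d _ => Finset.sum_congr rfl fun γ _ =>
      Finset.sum_congr rfl fun β _ => ?_
    ring
  have h9 : (∑ β, ((ct β (ps K w) : ℤ) : ZMod m) * ∑ c : ZMod q, ∑ d : ZMod q,
      ((φ d : ℤ) : ZMod m) * PP (f c) (g (c + d)) β.1) = ∑ c : ZMod q, ∑ d : ZMod q,
      ((φ d : ℤ) : ZMod m) * ∑ β, ((ct β (ps K w) : ℤ) : ZMod m) * PP (f c) (g (c + d)) β.1 := by
    simp only [Finset.mul_sum]
    rw [Finset.sum_comm]
    refine Finset.sum_congr rfl fun c _ => ?_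
    rw [Finset.sum_comm]
    refine Finset.sum_congr rfl fun d _ => Finset.sum_congr rfl fun β _ => ?_
    ring
  show ((ZZ φ a b (ps K w) : ℤ) : ZMod m) + (∑ β, ((ct β (ps K w) : ℤ) : ZMod m) *
    ∑ c : ZMod q, ∑ d : ZMod q, ((φ d : ℤ) : ZMod m) * PP (f c) (g (c + d)) β.1) +
    (∑ c : ZMod q, ∑ d : ZMod q, ((φ d : ℤ) : ZMod m) *
        (SB (f c) (ps K w) * SS (g (c + d)) (rm K w).1 + PP (f c) (g (c + d)) (rm K w).1)) = _
  rw [h6, h9, ← Finset.sum_add_distrib, ← Finset.sum_add_distrib]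
  refine Finset.sum_congr rfl fun c _ => ?_
  rw [← Finset.sum_add_distrib, ← Finset.sum_add_distrib]
  refine Finset.sum_congr rfl fun d _ => ?_
  ring

end known

/-- the abstract pairing -/
def bb {n : ℕ} [NeZero n] (φ U V : ZMod n → ℤ) : ℤ :=
  ∑ c : ZMod n, ∑ g : ZMod n, φ g * (U c * V (c + g))

theorem bb_shift {n : ℕ} [NeZero n] (φ U V : ZMod n → ℤ) (t : ZMod n)
    (hU : ∀ c, U (c + t) = U c) (j : ℕ) :
    bb φ U V = bb (fun g => φ (g - (j : ZMod n) * t)) U V := by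
  have hUj : ∀ (j : ℕ) (c : ZMod n), U (c + (j : ZMod n) * t) = U c := by
    intro j
    induction j with
    | zero => intro c; rw [Nat.cast_zero, zero_mul, add_zero]
    | succ j ih =>
      intro c
      rw [Nat.cast_succ, add_mul, one_mul, ← add_assoc, hU, ih]
  unfold bb
  rw [← Equiv.sum_comp (Equiv.addRight ((j : ZMod n) * t))]
  refine Finset.sum_congr rfl fun c _ => ?_
  rw [← Equiv.sum_comp (Equiv.addRight (-((j : ZMod n) * t)))]
  refine Finset.sum_congr rfl fun g _ => ?_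
  show φ (g + -((j : ZMod n) * t)) * (U (c + (j : ZMod n) * t) *
    V (c + (j : ZMod n) * t + (g + -((j : ZMod n) * t)))) = _
  rw [hUj, show c + (j : ZMod n) * t + (g + -((j : ZMod n) * t)) = c + g by ring,
    ← sub_eq_add_neg]

theorem bb_zero {n p : ℕ} [NeZero n] (hp : p.Prime) (hpn : p ∣ n) (φ U V : ZMod n → ℤ)
    (hφ : ∀ x, ∑ j ∈ Finset.range p, φ (x + (j * (n / p) : ℕ)) = 0)
    (hU : ∀ c, U (c + ((n / p : ℕ) : ZMod n)) = U c) : bb φ U V = 0 := by
  have h1 : (p : ℤ) * bb φ U V = 0 := by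
    have h2 : (p : ℤ) * bb φ U V = ∑ j ∈ Finset.range p,
        bb (fun g => φ (g - (j : ZMod n) * ((n / p : ℕ) : ZMod n))) U V := by
      rw [Finset.sum_congr rfl fun j _ => (bb_shift φ U V _ hU j).symm, Finset.sum_const,
        Finset.card_range, nsmul_eq_mul]
    rw [h2]
    unfold bb
    rw [Finset.sum_comm]
    refine Finset.sum_eq_zero fun c _ => ?_
    rw [Finset.sum_comm]
    refine Finset.sum_eq_zero fun g _ => ?_
    rw [← Finset.sum_mul]
    have h3 : ∑ j ∈ Finset.range p, φ (g - (j : ZMod n) * ((n / p : ℕ) : ZMod n)) = 0 := by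
      rw [← hφ (g - ((p - 1 : ℕ) : ZMod n) * ((n / p : ℕ) : ZMod n)),
        ← Finset.sum_range_reflect]
      refine Finset.sum_congr rfl fun j hj => ?_
      have hj' := Finset.mem_range.1 hj
      congr 1
      have h4 : ((p - 1 : ℕ) : ZMod n) = ((p - 1 - j : ℕ) : ZMod n) + (j : ZMod n) := by
        rw [← Nat.cast_add]
        congr 1
        omega
      rw [h4]
      push_cast
      ring
    rw [h3, zero_mul]
  rcases mul_eq_zero.1 h1 with h | h
  · exact absurd (by exact_mod_cast h) hp.ne_zero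
  · exact h

/-- the pairing is symmetric -/
theorem bb_symm {n : ℕ} [NeZero n] (φ U V : ZMod n → ℤ) :
    bb φ U V = bb (fun g => φ (-g)) V U := by
  unfold bb
  rw [Finset.sum_comm]
  rw [Finset.sum_comm (f := fun c g => φ (-g) * (V c * U (c + g)))]
  rw [← Equiv.sum_comp (Equiv.neg (ZMod n))]
  refine Finset.sum_congr rfl fun g _ => ?_
  rw [← Equiv.sum_comp (Equiv.addRight g)]
  refine Finset.sum_congr rfl fun c _ => ?_
  show φ (-g) * (U (c + g) * V (c + g + -g)) = φ (-g) * (V c * U (c + g))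
  rw [add_neg_cancel_right]
  ring

theorem bb_zero_right {n p : ℕ} [NeZero n] (hp : p.Prime) (hpn : p ∣ n) (φ U V : ZMod n → ℤ)
    (hφ : ∀ x, ∑ j ∈ Finset.range p, φ (x + (j * (n / p) : ℕ)) = 0)
    (hV : ∀ c, V (c + ((n / p : ℕ) : ZMod n)) = V c) : bb φ U V = 0 := by
  rw [bb_symm]
  refine bb_zero hp hpn _ V U (fun x => ?_) hV
  show ∑ j ∈ Finset.range p, φ (-(x + (j * (n / p) : ℕ))) = 0
  rw [← hφ (-x - ((p - 1 : ℕ) : ZMod n) * ((n / p : ℕ) : ZMod n)), ← Finset.sum_range_reflect]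
  refine Finset.sum_congr rfl fun j hj => ?_
  have hj' := Finset.mem_range.1 hj
  congr 1
  have h4 : ((p - 1 : ℕ) : ZMod n) = ((p - 1 - j : ℕ) : ZMod n) + (j : ZMod n) := by
    rw [← Nat.cast_add]
    congr 1
    omega
  rw [h4]
  push_cast
  ring

/-- blocks with a period -/
def Fln {n : ℕ} (B : Blk α n) : Prop := ∃ p : ℕ, p.Prime ∧ p ∣ n ∧
  ∀ (a : α) (s : ZMod n), H766.Q2.nc n a (s + ((n / p : ℕ) : ZMod n)) B.1 =
    H766.Q2.nc n a s B.1

/-- pairs of blocks with a common period -/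
def Exn {n : ℕ} (B' B : Blk α n) : Prop := ∃ p : ℕ, p.Prime ∧ p ∣ n ∧
  ∀ (a : α) (s : ZMod n), H766.Q2.nc n a (s + ((n / p : ℕ) : ZMod n)) B'.1 +
    H766.Q2.nc n a (s + ((n / p : ℕ) : ZMod n)) B.1 =
    H766.Q2.nc n a s B'.1 + H766.Q2.nc n a s B.1

theorem uc_nc (n : ℕ) (a : α) (r : ZMod n) (X : List α) : H766.Q2.nc n a r X = uc n a r X := by
  rw [nc_same, nc_eq]

theorem hh_bb {n : ℕ} [NeZero n] (φ : ZMod n → ℤ) (a b : α) (X Y : List α) :
    hh n φ a b X Y = bb φ (fun c => uc n a c X) (fun c => uc n b c Y) := rfl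

theorem bb_add_left {n : ℕ} [NeZero n] (φ U U' V : ZMod n → ℤ) :
    bb φ U V + bb φ U' V = bb φ (fun c => U c + U' c) V := by
  unfold bb
  rw [← Finset.sum_add_distrib]
  refine Finset.sum_congr rfl fun c _ => ?_
  rw [← Finset.sum_add_distrib]
  refine Finset.sum_congr rfl fun g _ => ?_
  ring

theorem bb_add_right {n : ℕ} [NeZero n] (φ U V V' : ZMod n → ℤ) :
    bb φ U V + bb φ U V' = bb φ U fun c => V c + V' c := by
  unfold bb
  rw [← Finset.sum_add_distrib]
  refine Finset.sum_congr rfl fun c _ => ?_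
  rw [← Finset.sum_add_distrib]
  refine Finset.sum_congr rfl fun g _ => ?_
  ring

/-- **primitive weights of the distance** -/
theorem prim_known [Finite α] {n : ℕ} [NeZero n]
    (hP : ∀ (K : Par α n) (g b : Blk α n), g ≠ b → ¬ Fln g → ¬ Fln b → ¬ Exn g b →
      KnZ fun w => pc g b (ps K w)) (φ : ZMod n → ℤ)
    (hφ : ∀ p, p.Prime → p ∣ n → ∀ x, ∑ j ∈ Finset.range p, φ (x + (j * (n / p) : ℕ)) = 0)
    (a b : α) : KnZ fun w : List α => ∑ g, φ g * H766.Q2.PG n g a b w.reverse := by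
  have h1 := TT_gen (α := α) (q := n) φ a b (F := Fln) (E := Exn)
    (by
      rintro γ β ⟨p, hp, hpn, h⟩
      refine ⟨p, hp, hpn, fun a s => ?_⟩
      rw [add_comm, h a s, add_comm])
    (by
      rintro γ β ⟨p, hp, hpn, h⟩
      rw [hh_bb]
      refine bb_zero hp hpn φ _ _ (hφ p hp hpn) fun c => ?_
      have := h a c
      rwa [uc_nc, uc_nc] at this)
    (by
      rintro γ β ⟨p, hp, hpn, h⟩
      rw [hh_bb]
      refine bb_zero_right hp hpn φ _ _ (hφ p hp hpn) fun c => ?_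
      have := h b c
      rwa [uc_nc, uc_nc] at this)
    (by
      rintro γ β ⟨p, hp, hpn, h⟩
      rw [hh_bb, hh_bb]
      have e1 : bb φ (fun c => uc n a c γ.1) (fun c => uc n b c γ.1) +
          bb φ (fun c => uc n a c β.1) (fun c => uc n b c γ.1) = 0 := by
        rw [bb_add_left]
        refine bb_zero hp hpn φ _ _ (hφ p hp hpn) fun c => ?_
        have := h a c
        rwa [uc_nc, uc_nc, uc_nc, uc_nc] at this
      have e2 : bb φ (fun c => uc n a c γ.1) (fun c => uc n b c γ.1) +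
          bb φ (fun c => uc n a c γ.1) (fun c => uc n b c β.1) = 0 := by
        rw [bb_add_right]
        refine bb_zero_right hp hpn φ _ _ (hφ p hp hpn) fun c => ?_
        have := h b c
        rwa [uc_nc, uc_nc, uc_nc, uc_nc] at this
      omega)
    hP
  refine h1.congr fun w => ?_
  unfold TT
  rw [Finset.sum_comm]
  refine Finset.sum_congr rfl fun g _ => ?_
  rw [PG_same, PG_eq, pg_eq, Finset.mul_sum]

end Vale.Agent.P329.H672.Q2
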