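import Vale.Agent.P329.Mark.Long
import Vale.Agent.P329.Clock.Cut

set_option linter.all false

/-!
Zones on which a rule is constant.
-/

namespace Vale.Agent.P329.H672

open Vale.Agent.P329

variable {α : Type}

/-- the rule `τ` has the same value on all factors of length `b` of `g` -/
def Con (τ : List α → List α) (b : ℕ) (g : List α) : Prop :=
  ∀ f k : List α, f <:+: g → k <:+: g → f.length = b → k.length = b → τ f = τ k

theorem Con.sub {τ : List α → List α} {b : ℕ} {g k : List α} (h : Con τ b g) (hk : k <:+: g) :
    Con τ b k :=
  fun f l hf hl => h f l (hf.trans hk) (hl.trans hk)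

theorem infix_split {x y z k : List α} (h : k <:+: x ++ y ++ z) (hk : k.length ≤ y.length) :
    k <:+: x ++ y ∨ k <:+: y ++ z := by
  obtain ⟨s, t, hst⟩ := h
  by_cases h1 : x.length ≤ s.length
  · right
    have h2 : x <+: s := by
      refine List.prefix_of_prefix_length_le (l₃ := x ++ y ++ z) ?_ ?_ h1
      · rw [List.append_assoc]; exact List.prefix_append _ _
      · rw [← hst, List.append_assoc]; exact List.prefix_append _ _
    obtain ⟨s', rfl⟩ := h2
    rw [List.append_assoc, List.append_assoc, List.append_assoc, List.append_cancel_left_eq] at hst
    exact ⟨s', t, by rw [← hst, List.append_assoc]⟩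
  · left
    push Not at h1
    have h2 : s ++ k <+: x ++ y := by
      refine List.prefix_of_prefix_length_le (l₃ := x ++ y ++ z) ?_ (List.prefix_append _ _) ?_
      · rw [← hst]; exact List.prefix_append _ _
      · rw [List.length_append, List.length_append]; omega
    exact (List.suffix_append s k).isInfix.trans h2.isInfix

/-- two overlapping zones -/
theorem Con.union {τ : List α → List α} {b : ℕ} {x y z : List α} (h1 : Con τ b (x ++ y))
    (h2 : Con τ b (y ++ z)) (hy : b ≤ y.length) : Con τ b (x ++ y ++ z) := by
  have e0 : (y.take b).length = b := by rw [List.length_take]; omega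
  have e1 : y.take b <:+: x ++ y :=
    (List.take_prefix b y).isInfix.trans (List.suffix_append x y).isInfix
  have e2 : y.take b <:+: y ++ z :=
    (List.take_prefix b y).isInfix.trans (List.prefix_append y z).isInfix
  have key : ∀ f, f <:+: x ++ y ++ z → f.length = b → τ f = τ (y.take b) := by
    intro f hf hb
    rcases infix_split hf (by omega) with h | h
    · exact h1 f _ h e1 hb e0
    · exact h2 f _ h e2 hb e0
  intro f k hf hk hfb hkb
  rw [key f hf hfb, key k hk hkb]

/-- the first `a` letters of the value of the rule -/
def md (τ : List α → List α) (a b : ℕ) (W : List α) : List α := (τ (W.take b)).take a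

theorem md_eq {τ : List α → List α} {a b : ℕ} {g k : List α} (h : Con τ b g) (hk : k <:+: g)
    (hb : b ≤ k.length) : md τ a b k = md τ a b g := by
  have h1 := hk.length_le
  rw [md, md, h (k.take b) (g.take b) ((List.take_prefix _ _).isInfix.trans hk)
    (List.take_prefix _ _).isInfix (by rw [List.length_take]; omega)
    (by rw [List.length_take]; omega)]

end Vale.Agent.P329.H672
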