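import Vale.Agent.P329.H672.Names

set_option linter.all false

/-!
Left and right names; left names are sparse.
-/

namespace Vale.Agent.P329.H672

open Vale.Agent.P329 Vale.Agent.P329.Slow Vale.Agent.P329.Mark

section per

variable {α : Type}

theorem per_contra {c k r : ℕ} {X q : List α} (h1 : X.take k <:+ q) (h2 : X.take r <:+ q)
    (hkr : k < r) (hr : r ≤ X.length) (hc : c ≤ r)
    (hp : ¬ (X.take c).drop (r - k) <+: X.take c) : False := by
  have h3 : X.take k <:+ X.take r := List.suffix_of_suffix_length_le h1 h2 (by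
    rw [List.length_take, List.length_take]; omega)
  have h4 := suffix_eq_drop h3
  rw [List.length_take, List.length_take, min_eq_left hr, min_eq_left (by omega)] at h4
  apply hp
  rw [List.drop_take] at h4 ⊢
  have e1 : r - (r - k) = k := by omega
  rw [e1] at h4
  by_cases h5 : r - k ≤ c
  · have h6 : (X.drop (r - k)).take (c - (r - k)) = X.take (c - (r - k)) := by
      have h7 := congrArg (List.take (c - (r - k))) h4
      rw [List.take_take, List.take_take, min_eq_left (by omega)] at h7
      exact h7.symm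
    rw [h6]
    exact List.take_prefix_take_left (by omega)
  · rw [Nat.sub_eq_zero_of_le (by omega), List.take_zero]
    exact List.nil_prefix

theorem take_suffix_cut {X q x : List α} {r : ℕ} (h : X.take r <:+ q ++ x) (hx : x.length ≤ r)
    (hr : r ≤ X.length) : X.take (r - x.length) <:+ q := by
  obtain ⟨t, ht⟩ := h
  have e1 : X.take r = X.take (r - x.length) ++ (X.take r).drop (r - x.length) := by
    conv_lhs => rw [← List.take_append_drop (r - x.length) (X.take r)]
    rw [List.take_take, min_eq_left (by omega)]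
  rw [e1, ← List.append_assoc] at ht
  have e2 := List.append_inj' ht (by
    rw [List.length_drop, List.length_take]; omega)
  exact ⟨t, e2.1⟩

end per

section pl

variable {α V : Type} [AddCommGroup V] [Fintype V] {M : α → V →+ V}

/-- left names -/
def PLw (D : Dat M) (ω : ℕ) (r : List α × V) (u : List α) : Prop :=
  ω ≤ u.length ∧ Con D.t D.b (lst ω u) ∧ XG D r.1 ∧ mo D (lst ω u) = mo D r.1 ∧
    (∀ k : List α, k <:+: lst (D.b + D.b') u → k.length = D.b' → D.t' k = r.1) ∧
      r.1.take (rr D r.1 r.2) <:+ u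

/-- right names -/
def PRw (D : Dat M) (ω : ℕ) (r : List α × V) (z : List α) : Prop :=
  ω ≤ z.length ∧ Con D.t D.b (z.take ω) ∧ mo D (z.take ω) = mo D r.1 ∧
    (mo D r.1).length = D.a ∧ Free D.N (mo D r.1) ∧ D.R (mo D r.1) (nt D r.1 r.2).1 <+: z

/-- the size of the windows of the places -/
def om (D : Dat M) : ℕ := D.a' + 3 * D.b + D.b'

variable {D : Dat M} {ω : ℕ}

theorem rr_sep (H : Hyp D) {X : List α} (hX : XG D X)
    {y y' : V} (h : rr D X y < rr D X y' + 2 * D.b) (h' : rr D X y' < rr D X y + 2 * D.b) :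
    y = y' := by
  have h1 := hX.rr_spec H y
  have h2 := hX.rr_spec H y'
  by_contra hne
  rcases hX.pso.1 y y' hne with h3 | h3 <;> omega

theorem thin (H : Hyp D) {r1 r2 : List α × V} {q x : List α}
    (h1 : PLw D ω r1 q) (h2 : PLw D ω r2 (q ++ x)) (hx : x.length < D.b)
    (hω : D.b + D.b' ≤ ω) : x = [] ∧ r1 = r2 := by
  obtain ⟨h1l, -, hX1, -, h1t, h1s⟩ := h1
  obtain ⟨h2l, -, hX2, -, h2t, h2s⟩ := h2
  -- the words agree
  have e1 : lst (D.b + D.b' - x.length) q <:+: lst (D.b + D.b') q :=
    lst_infix_of_le (by omega) (by omega)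
  have e2 : lst (D.b + D.b' - x.length) q <:+: lst (D.b + D.b') (q ++ x) := by
    rw [lst_split (by omega) (by omega)]
    exact (List.prefix_append _ _).isInfix
  have e3 : (lst (D.b + D.b' - x.length) q).length = D.b + D.b' - x.length :=
    lst_length (by omega)
  have e4 : r1.1 = r2.1 := by
    have e5 : (lst (D.b + D.b' - x.length) q).take D.b' <:+:
        lst (D.b + D.b' - x.length) q := (List.take_prefix _ _).isInfix
    rw [← h1t _ (e5.trans e1) (by rw [List.length_take]; omega),
      ← h2t _ (e5.trans e2) (by rw [List.length_take]; omega)]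
  obtain ⟨X, y1⟩ := r1
  obtain ⟨X2, y2⟩ := r2
  simp only at e4 hX1 hX2 h1s h2s
  subst e4
  have s1 := hX1.rr_spec H y1
  have s2 := hX1.rr_spec H y2
  have hlen := hX1.len
  have t1 := (hX1.pso.2.1 y1).1
  have t2 := (hX1.pso.2.1 y2).1
  have t3 := (hX1.occ_le H y1).1
  have t4 := (hX1.occ_le H y2).1
  obtain ⟨e, hce, hper⟩ := hX1.pso.2.2
  have c1 := take_suffix_cut h2s (by omega) (by omega)
  have u1 := hce y1
  have u2 := hce y2
  by_cases hk : rr D X y2 - x.length = rr D X y1
  · have e5 := rr_sep H hX1 (y := y1) (y' := y2) (by omega) (by omega)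
    subst e5
    refine ⟨List.length_eq_zero_iff.1 (by omega), rfl⟩
  · exfalso
    rcases Nat.lt_or_gt_of_ne hk with h3 | h3
    · exact per_contra (c := D.c) c1 h1s h3 (by omega) (by omega) (hper _ (by omega) (by omega))
    · by_cases h4 : D.c ≤ rr D X y2 - x.length
      · exact per_contra (c := D.c) h1s c1 h3 (by omega) h4 (hper _ (by omega) (by omega))
      · omega

theorem PLw.unique (H : Hyp D) {r1 r2 : List α × V} {q : List α}
    (h1 : PLw D ω r1 q) (h2 : PLw D ω r2 q) (hω : D.b + D.b' ≤ ω) : r1 = r2 := by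
  have hb : 0 < D.b := lt_of_lt_of_le H.ha H.hab
  exact (thin H h1 (x := []) (by rw [List.append_nil]; exact h2) (by simpa using hb) hω).2

theorem PRw.unique {r1 r2 : List α × V} {z : List α}
    (h1 : PRw D ω r1 z) (h2 : PRw D ω r2 z) :
    mo D r1.1 = mo D r2.1 ∧ (nt D r1.1 r1.2).1 = (nt D r2.1 r2.2).1 := by
  obtain ⟨-, -, h3, h4, h5, h6⟩ := h1
  obtain ⟨-, -, h3', h4', h5', h6'⟩ := h2
  have e1 : mo D r1.1 = mo D r2.1 := h3.symm.trans h3'
  refine ⟨e1, ?_⟩
  rw [e1] at h6
  exact (D.sys _ h4' h5').uniqR h6 h6'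

/-- smaller windows -/
theorem PLw.mono {ω' : ℕ} {r : List α × V} {u : List α}
    (h : PLw D ω r u) (hω : ω' ≤ ω) (hb : D.b ≤ ω') : PLw D ω' r u := by
  obtain ⟨h1, h2, h3, h4, h5, h6⟩ := h
  have e1 : lst ω' u <:+: lst ω u := lst_infix_of_le hω h1
  have e2 : (lst ω' u).length = ω' := lst_length (by omega)
  exact ⟨by omega, h2.sub e1, h3, by rw [mo_eq h2 e1 (by omega), h4], h5, h6⟩

theorem PRw.mono (H : Hyp D) {ω' : ℕ} {r : List α × V} {z : List α}
    (h : PRw D ω r z) (hω : ω' ≤ ω) (hb : D.b ≤ ω') : PRw D ω' r (z.take ω') := by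
  obtain ⟨h1, h2, h3, h4, h5, h6⟩ := h
  have e1 : (z.take ω').take ω' <:+: z.take ω := by
    rw [List.take_take, min_self]
    exact (List.take_prefix_take_left hω).isInfix
  have e2 : (z.take ω').length = ω' := by rw [List.length_take]; omega
  refine ⟨by omega, h2.sub e1, ?_, h4, h5, ?_⟩
  · rw [mo_eq h2 e1 (by rw [List.length_take]; omega), h3]
  · have S := D.sys _ h4 h5
    have := n_le (D := D) _ h4 h5
    have := H.hab
    exact List.prefix_take_iff.2 ⟨h6, by rw [S.lenR]; omega⟩

theorem PLw.app_iff {r : List α × V} {u q : List α}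
    (hq : ω ≤ q.length) (hω : D.a' ≤ ω) (hω2 : D.b + D.b' ≤ ω) :
    PLw D ω r (u ++ q) ↔ PLw D ω r q := by
  unfold PLw
  rw [lst_append hq, lst_append (k := D.b + D.b') (by omega), List.length_append]
  constructor
  · rintro ⟨-, h2, h3, h4, h5, h6⟩
    refine ⟨hq, h2, h3, h4, h5, suffix_of_le h6 ?_⟩
    rw [List.length_take, h3.len]; omega
  · rintro ⟨-, h2, h3, h4, h5, h6⟩
    exact ⟨by omega, h2, h3, h4, h5, h6.trans (List.suffix_append _ _)⟩

end pl

end Vale.Agent.P329.H672
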