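import Vale.Agent.P329.H672.Junc

set_option linter.all false

/-!
Every strand is cut in a zone; the theorem.
-/

namespace Vale.Agent.P329.H672

open Vale.Agent.P329 Vale.Agent.P329.Slow Vale.Agent.P329.Mark Vale.Agent.P329.Clock

section zone

variable {α V : Type} [AddCommGroup V] [Fintype V] {M : α → V →+ V} 
variable {D : Dat M}

theorem cr_in (hab : D.a ≤ D.b) {g u p x : List α} (hg : Con D.t D.b g) (hp : D.b ≤ p.length)
    (hx : D.b ≤ x.length) (h : p ++ x <:+: g) :
    cr D (u ++ p) x = Js D (mo D g) (u ++ p) x := by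
  refine cr_deep hg (by rw [List.length_append]; omega) hx ?_
  rw [lst_append hp]
  refine List.IsInfix.trans ?_ h
  obtain ⟨t, ht⟩ := lst_suffix D.b p
  refine ⟨t, x.drop D.b, ?_⟩
  rw [← List.append_assoc, ht, List.append_assoc, List.take_append_drop]

theorem Dc_deep (H : Hyp D) {g u C : List α} (hg : Con D.t D.b g)
    (hC : C <:+: g) (hl : 2 * om D ≤ C.length) : Dc D (u ++ C) = 0 := by
  obtain ⟨q, y, rfl, hy⟩ := exists_suffix_split (k := om D) (u := C) (by omega)
  rw [List.length_append] at hl
  rw [← List.append_assoc, Dc_append hy]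
  by_cases hn : ∃ r1 r1' : List α × V, PLw D (om D) r1 (u ++ q) ∧
    PRw D (om D) r1' y
  swap
  · exact DD_none fun r1 r2 h3 h4 => hn ⟨r1, r2, h3, h4⟩
  obtain ⟨r1, r1', h3, h4⟩ := hn
  rw [DD_eq H h3 h4]
  refine form_zero H h3 h4 hy ?_
  rw [lst_append (by omega)]
  refine hg.sub (List.IsInfix.trans (List.IsSuffix.isInfix ?_) hC)
  obtain ⟨t, ht⟩ := lst_suffix (om D) q
  exact ⟨t, by rw [← List.append_assoc, ht]⟩

theorem Th_eq {s : List α} (hs : s.length = D.a ∧ Free D.N s) (w : List α) :
    Th M (D.L s) (D.R s) (D.val s) w = TJ M (fun p x => Js D s p x) w := by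
  have h1 : TJ M (fun p x => Js D s p x) w =
      TJ M (fun p x => J (D.L s) (D.R s) (D.val s) p x) w :=
    TJ_congr M fun p x _ => Js_good hs.1 hs.2
  rw [h1]
  rfl

theorem T_step (H : Hyp D) {g G0 X2 y s u : List α} {x : V}
    (hg : Con D.t D.b g) (hs : s = mo D g) (hgood : s.length = D.a ∧ Free D.N s)
    (hin : (G0 ++ X2) ++ y <:+: g) (hG0 : 2 * om D ≤ G0.length) (hX2 : 2 * D.a ≤ X2.length) :
    EE D ((u ++ (G0 ++ X2)) ++ y) x + pend D s ((u ++ (G0 ++ X2)) ++ y) =
      act M y (EE D (u ++ (G0 ++ X2)) x + pend D s (u ++ (G0 ++ X2))) +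
        (TJ M (fun p x => Js D s p x) (X2 ++ y) - act M y (TJ M (fun p x => Js D s p x) X2)) := by
  have hab := H.hab
  have h2 := H.b2
  have hb : 0 < D.b := lt_of_lt_of_le H.ha H.hab
  have hn := n_le (D := D) s hgood.1 hgood.2
  have hna : D.n s ≤ D.a := hn
  obtain ⟨W, hW⟩ : ∃ W, W = u ++ (G0 ++ X2) := ⟨_, rfl⟩
  have hC : (G0 ++ X2).length = G0.length + X2.length := List.length_append
  -- first parts
  have e1 : TS M (fun p x => cr D p (x ++ y) + (if (x ++ y).length < D.b then
        Js D s p (x ++ y) else 0)) W =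
      TS M (fun p x => (cr D p x + if x.length < D.b then Js D s p x else 0) +
        (Js D s p (x ++ y) - Js D s p x)) W := by
    refine TS_congr M fun p x hpx _ => ?_
    by_cases hx : x.length < D.b
    · rw [cr_short_right hx, if_pos hx, zero_add]
      by_cases hxy : (x ++ y).length < D.b
      · rw [cr_short_right hxy, if_pos hxy]; abel
      · rw [if_neg hxy]
        have hpl := congrArg List.length hpx
        rw [List.length_append, hW, List.length_append, hC] at hpl
        have h3 : u <+: p := List.prefix_of_prefix_length_le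
          (l₃ := u ++ (G0 ++ X2)) (List.prefix_append _ _)
          (by rw [← hW, ← hpx]; exact List.prefix_append _ _) (by omega)
        obtain ⟨p', rfl⟩ := h3
        rw [List.length_append] at hpl
        have h4 : p' ++ x = G0 ++ X2 := by
          rw [hW, List.append_assoc, List.append_cancel_left_eq] at hpx
          exact hpx
        rw [cr_in hab hg (by omega) (by omega) (by rw [← List.append_assoc, h4]; exact hin), ← hs]
        abel
    · rw [if_neg hx, if_neg (by rw [List.length_append]; omega),
        cr_right hab (by omega), Js_right (fun _ _ => by omega)]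
      abel
  have e2 : TS M (fun p x => Js D s p (x ++ y) - Js D s p x) W =
      TS M (fun p x => Js D s p (x ++ y) - Js D s p x) X2 := by
    rw [hW, ← List.append_assoc, TS_short M (b := D.n s) (by omega) (fun p x hx => by
      rw [Js_right (fun _ _ => hx), sub_self])]
    refine TS_congr M fun p x hpx _ => ?_
    have hpl := congrArg List.length hpx
    rw [List.length_append] at hpl
    by_cases hx : x.length < D.n s
    · rw [Js_left (fun _ _ => by omega), Js_left (fun _ _ => by omega)]
    · rw [Js_right (fun _ _ => by omega), Js_right (fun _ _ => by omega), sub_self, sub_self]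
  -- second parts
  have e3 : TS M (fun p x => cr D (W ++ p) x + if x.length < D.b then
        Js D s (W ++ p) x else 0) y = TS M (fun p x => Js D s (X2 ++ p) x) y := by
    refine TS_congr M fun p x hpx _ => ?_
    have e4 : Js D s (W ++ p) x = Js D s (X2 ++ p) x := by
      rw [hW, ← List.append_assoc, List.append_assoc _ X2 p]
      exact Js_left fun _ _ => by rw [List.length_append]; omega
    by_cases hx : x.length < D.b
    · rw [if_pos hx, cr_short_right hx, zero_add, e4]
    · rw [if_neg hx, add_zero, ← e4, hW, List.append_assoc]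
      rw [cr_in hab hg (by rw [List.length_append, hC]; omega) (by omega) (by
        rw [List.append_assoc (G0 ++ X2), hpx]; exact hin), ← hs]
  have e5 : TJ M (fun p _ => Dc D p) (W ++ y) =
      act M y (TJ M (fun p _ => Dc D p) W) := by
    rw [TJ_append, TJ_zero M (J := fun p _ => Dc D (W ++ p)), add_zero, TJ_eq M _ W]
    · have e6 : Dc D W = 0 := by
        rw [hW]
        refine Dc_deep H hg ?_ (by omega)
        exact (List.prefix_append _ y).isInfix.trans hin
      rw [e6, add_zero]
    · intro p x hpx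
      rw [hW, List.append_assoc]
      refine Dc_deep H hg ?_ (by rw [List.length_append]; omega)
      refine List.IsInfix.trans ?_ hin
      rw [← hpx, ← List.append_assoc]
      exact (List.prefix_append _ x).isInfix
  have e6 : cr D (W ++ y) [] = 0 := cr_short_right (by simpa using hb)
  have e7 : cr D W [] = 0 := cr_short_right (by simpa using hb)
  have e8 : TJ M (fun p x => Js D s p x) (X2 ++ y) -
      act M y (TJ M (fun p x => Js D s p x) X2) =
      act M y (TS M (fun p x => Js D s p (x ++ y) - Js D s p x) X2) +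
        TS M (fun p x => Js D s (X2 ++ p) x) y := by
    rw [TJ_append, TJ_eq M _ X2, TJ_eq M _ y, TS_sub, act_sub]
    rw [Js_nil_right, Js_nil_right, add_zero, add_zero]
    abel
  rw [TS_add, TS_add, TS_add, e2] at e1
  rw [TS_add] at e3
  rw [e8]
  unfold EE pend
  rw [← hW, e5, TJ_append M (cr D), TJ_eq M _ y, e6, TJ_eq M (cr D) W, e7, TS_append,
    act_append]
  simp only [act_add, add_zero]
  have e9 := congrArg (act M y) e1
  simp only [act_add] at e9
  rw [← e3]
  have e10 : ∀ A B C D E F G K L P Q R : V, A + B = C + D + E → 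
      (F + (A + G) + K) + (B + L) = F + C + K + D + (E + (G + L)) := by
    intro A B C D E F G K L P Q R h
    have : F + (A + G) + K + (B + L) = F + (A + B) + G + K + L := by abel
    rw [this, h]; abel
  exact e10 _ _ _ _ _ _ _ _ _ 0 0 0 e9

/-- zones for the rules `τ`, `τ'` -/
def ZR (C N b c a' b' : ℕ) (τ τ' : List α → List α) (g : List α) : Prop :=
  ∃ (P₀ P X Q s : List α) (e : ℕ) (p : Fin C → ℕ), g = P₀ ++ P ++ X ++ Q ∧
    2 * (a' + 3 * b + b') ≤ P₀.length ∧ P.length = b + b' ∧ X.length = a' ∧
    2 * (a' + 3 * b + b') ≤ Q.length ∧ s.length = C ∧ Free N s ∧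
    (∀ f : List α, f <:+: g → f.length = b → τ f = s) ∧
    (∀ i, c + b ≤ p i ∧ p i ≤ c + e ∧ s <+: X.drop (p i)) ∧
    (∀ i j, i < j → p i + 3 * b ≤ p j) ∧
    (∀ d, 0 < d → d ≤ e + 2 * b → ¬ (X.take c).drop d <+: X.take c) ∧
    (∀ (t : ℕ) (f : List α), c ≤ t → f <:+ P ++ X.take t → f.length = b' → τ' f = X)

theorem cut_in (H : Hyp D) (hV : Fintype.card V ≤ D.a) {g : List α}
    (hZ : ZR D.a D.N D.b D.c D.a' D.b' D.t D.t' g)
    (u : List α) (x : V) : ∃ (r : List α × V) (c d : List α), c ++ d = g ∧
      PLw D (2 * om D) r c ∧ PRw D (2 * om D) r d ∧ EE D (u ++ c) x = lam D r c := by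
  have ha := H.ha
  have hab := H.hab
  have h2 := H.b2
  have hb : 0 < D.b := lt_of_lt_of_le H.ha H.hab
  have hom : om D = D.a' + 3 * D.b + D.b' := rfl
  obtain ⟨P0, P, X, Q, s, e, p, hgd, hP0, hP, hXl, hQ, hsl, hfree, hs1, hp1, hp2, hper, hs3⟩ := hZ
  rw [← hom] at hP0 hQ
  obtain ⟨G0, hG0⟩ : ∃ G0, G0 = P0 ++ P := ⟨_, rfl⟩
  have hgd' : g = G0 ++ X ++ Q := by rw [hgd, hG0]
  have hG0l : 2 * om D ≤ G0.length := by rw [hG0, List.length_append]; omega
  have hg : Con D.t D.b g := fun f k hf hk hfb hkb => by rw [hs1 f hf hfb, hs1 k hk hkb]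
  have hXg0 : X <:+: g := ⟨G0, Q, hgd'.symm⟩
  have hmo : ∀ W : List α, W <:+: g → D.b ≤ W.length → mo D W = s := by
    intro W hW hWb
    rw [mo, md, hs1 _ ((List.take_prefix _ _).isInfix.trans hW) (by
      rw [List.length_take]; omega), List.take_of_length_le hsl.le]
  have hcb := no_per hper (by omega)
  have hXb : 3 * D.b ≤ X.length := by
    obtain ⟨h3, h4, h5⟩ := hp1 ⟨0, ha⟩
    have h6 := h5.length_le
    rw [List.length_drop] at h6
    omega
  have hsX : s = mo D X := (hmo X hXg0 (by omega)).symm
  have hsg : s = mo D g := (hmo g List.infix_rfl (hXg0.length_le.trans' (by omega))).symm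
  have hXg : XG D X := by
    refine ⟨hXl, hg.sub hXg0, by rw [← hsX]; exact hsl, by rw [← hsX]; exact hfree,
      fun y => p ⟨idx y, (idx_lt y).trans_le hV⟩, ?_, ?_, e, ?_, hper⟩
    · intro y y' hne
      rcases Nat.lt_or_gt_of_ne (fun h => hne (idx_inj h)) with h3 | h3
      · exact Or.inl (hp2 _ _ h3)
      · exact Or.inr (hp2 _ _ h3)
    · intro y
      rw [← hsX]
      exact ⟨(hp1 _).1, (hp1 _).2.2⟩
    · intro y
      exact (hp1 _).2.1
  have hgood : s.length = D.a ∧ Free D.N s := hsX ▸ hXg.good
  obtain ⟨y0, hy0⟩ : ∃ y0, y0 = EE D (u ++ (G0 ++ X.take (2 * D.a))) x +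
    pend D s (u ++ (G0 ++ X.take (2 * D.a))) -
      TJ M (fun p x => Js D s p x) (X.take (2 * D.a)) := ⟨_, rfl⟩
  have hr := hXg.rr_spec H y0
  have hoc := hXg.occ_le H y0
  have hra : 2 * D.a ≤ rr D X y0 := by omega
  have e1 : X.take (rr D X y0) = X.take (2 * D.a) ++ (X.take (rr D X y0)).drop (2 * D.a) := by
    conv_lhs => rw [← List.take_append_drop (2 * D.a) (X.take (rr D X y0))]
    rw [List.take_take, min_eq_left hra]
  have hin : (G0 ++ X.take (2 * D.a)) ++ (X.take (rr D X y0)).drop (2 * D.a) <:+: g := by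
    rw [List.append_assoc, ← e1, hgd']
    refine ⟨[], X.drop (rr D X y0) ++ Q, ?_⟩
    simp only [List.nil_append, List.append_assoc]
    rw [← List.append_assoc (X.take _), List.take_append_drop]
  have e2 := T_step H (x := x) (u := u) hg hsg hgood hin hG0l (by
    rw [List.length_take]; omega)
  have e3 : (u ++ (G0 ++ X.take (2 * D.a))) ++ (X.take (rr D X y0)).drop (2 * D.a) =
      u ++ (G0 ++ X.take (rr D X y0)) := by
    conv_rhs => rw [e1]
    simp only [List.append_assoc]
  rw [e3, ← e1] at e2
  have e4 := hXg.value H y0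
  rw [← hsX, Th_eq hgood] at e4
  have e5 : EE D (u ++ (G0 ++ X.take (rr D X y0))) x +
      pend D s (u ++ (G0 ++ X.take (rr D X y0))) = D.val s (nt D X y0).1 := by
    rw [e2, ← e4]
    have e6 : EE D (u ++ (G0 ++ X.take (2 * D.a))) x +
        pend D s (u ++ (G0 ++ X.take (2 * D.a))) =
        y0 + TJ M (fun p x => Js D s p x) (X.take (2 * D.a)) := by rw [hy0]; abel
    rw [e6, act_add]
    abel
  have hcg : G0 ++ X.take (rr D X y0) <+: g := by
    rw [hgd']
    refine ⟨X.drop (rr D X y0) ++ Q, ?_⟩
    rw [List.append_assoc, ← List.append_assoc (X.take _), List.take_append_drop,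
      ← List.append_assoc]
  have hdg : X.drop (rr D X y0) ++ Q <:+ g := by
    rw [hgd']
    refine ⟨G0 ++ X.take (rr D X y0), ?_⟩
    simp only [List.append_assoc]
    rw [← List.append_assoc (X.take _), List.take_append_drop]
  have hcl : 2 * om D ≤ (G0 ++ X.take (rr D X y0)).length := by
    rw [List.length_append]; omega
  have hdl : 2 * om D ≤ (X.drop (rr D X y0) ++ Q).length := by
    rw [List.length_append]; omega
  refine ⟨(X, y0), G0 ++ X.take (rr D X y0), X.drop (rr D X y0) ++ Q, ?_, ?_, ?_, ?_⟩
  · rw [hgd', List.append_assoc, ← List.append_assoc (X.take _), List.take_append_drop,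
      ← List.append_assoc]
  · have w1 : lst (2 * om D) (G0 ++ X.take (rr D X y0)) <:+: g :=
      (lst_suffix _ _).isInfix.trans hcg.isInfix
    have w2 : (lst (2 * om D) (G0 ++ X.take (rr D X y0))).length = 2 * om D :=
      lst_length hcl
    refine ⟨hcl, hg.sub w1, hXg, by rw [hmo _ w1 (by omega), hsX], ?_,
      List.suffix_append _ _⟩
    intro k hk hkb
    have w3 : lst (D.b + D.b') (G0 ++ X.take (rr D X y0)) <:+ P ++ X.take (rr D X y0) := by
      refine List.suffix_of_suffix_length_le (lst_suffix _ _) ?_ ?_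
      · rw [hG0, List.append_assoc]
        exact List.suffix_append _ _
      · rw [lst_length (by omega), List.length_append]
        omega
    obtain ⟨a1, a2, ha12⟩ := hk
    obtain ⟨w, hw⟩ := w3
    have hal := congrArg List.length ha12
    rw [List.length_append, List.length_append, lst_length (by omega), hkb] at hal
    have hra' : (X.take (rr D X y0)).length = rr D X y0 := by
      rw [List.length_take]; omega
    have hco := (hXg.pso.2.1 y0).1
    refine hs3 (rr D X y0 - a2.length) k (by omega) ?_ hkb
    have w4 : P ++ X.take (rr D X y0) = (w ++ a1 ++ k) ++ a2 := by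
      rw [← hw, ← ha12]
      simp only [List.append_assoc]
    have w5 : P ++ X.take (rr D X y0 - a2.length) = w ++ a1 ++ k := by
      have w6 : (P ++ X.take (rr D X y0)).take (P.length + (rr D X y0 - a2.length)) =
          P ++ X.take (rr D X y0 - a2.length) := by
        rw [List.take_length_add_append, List.take_take, min_eq_left (by omega)]
      rw [← w6, w4]
      have w7 := congrArg List.length w4
      rw [List.length_append, List.length_append (as := w ++ a1 ++ k), hra'] at w7
      exact List.take_left' (by omega)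
    rw [w5]
    exact List.suffix_append _ _
  · have w1 : (X.drop (rr D X y0) ++ Q).take (2 * om D) <:+: g :=
      (List.take_prefix _ _).isInfix.trans hdg.isInfix
    refine ⟨hdl, hg.sub w1, ?_, ?_, ?_, ?_⟩
    · rw [hmo _ w1 (by rw [List.length_take]; omega), hsX]
    · exact hXg.good.1
    · exact hXg.good.2
    · exact (hXg.R_prefix y0).trans (List.prefix_append _ _)
  · have e7 : pend D s (u ++ (G0 ++ X.take (rr D X y0))) =
        pend D s (G0 ++ X.take (rr D X y0)) := pend_append hab (by omega)
    rw [e7] at e5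
    have e8 := eq_sub_of_add_eq e5
    rw [e8]
    unfold lam
    rw [← hsX]

end zone

end Vale.Agent.P329.H672
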